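import Vale.Agent.P201.S.PC

/-!
P201 part F: induction over complexes (helper631).

`Gd K`: no mirror pairs across x- and y-edges, and a height function for the t-edges with at most one
exceptional edge (on the outer face).  `K.W Y`: weight of the edges with exactly one inner side.
-/

namespace Vale.Agent.P201.S

open Finset

variable {S : Sys} {σ : Equiv.Perm S.C}

namespace SqK

variable (K : SqK σ)

/-- no mirror pair across an x- or y-edge -/
def RedK : Prop := ∀ (f f' : K.F) (d : K.E × Bool), d ∈ K.bd (some f) → rv d ∈ K.bd (some f') →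
  K.lab d.1 ≠ Let.t → K.q f' ≠ mt σ (K.q f)

/-- a height function for the t-edges, with at most one exceptional edge, which lies on the outer face -/
def PosK : Prop := ∃ (τ : K.V → ℤ) (O : K.E → Prop), (∀ e e2, O e → O e2 → e = e2) ∧
  (∀ e, O e → ∃ b, (e, b) ∈ K.bd none) ∧
  ∀ e, K.lab e = Let.t → ¬ O e → τ (K.org (e, false)) = τ (K.org (e, true)) + 1

def Gd : Prop := K.RedK ∧ K.PosK

/-- weight of a set of edges -/
def wS (Y : ℕ) (B : Finset K.E) : ℕ := ∑ e ∈ B, wtl Y (K.lab e)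

/-- weight of the edges with exactly one inner side -/
noncomputable def W (Y : ℕ) : ℕ := K.wS Y (K.bdry univ)

end SqK

/-- (M) merging the complement of a bond with the outer face -/
def StmtMerge : Prop :=
  ∀ (S : Sys) (σ : Equiv.Perm S.C) (K : SqK σ) (C : Finset K.F), K.Bond C →
    ∃ K' : SqK σ, Fintype.card K'.F = C.card ∧ (∀ Y, K'.W Y = K.wS Y (K.bdry C)) ∧ (K.Gd → K'.Gd)

/-- (D6, first half) unreducible complexes are good -/
def StmtGd : Prop :=
  ∀ (S : Sys) (σ : Equiv.Perm S.C) (K : SqK σ) (P : K.GPot),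
    NoRed σ (val K.outw) (Fintype.card K.F) (K.chn P univ) →
    (∀ (m : ℤ) (k : ℕ) (z : Chn σ), m ≠ 0 → Expr σ k (val (tw S m)) z → Fintype.card K.F < k ∨
      (Fintype.card K.F ≤ k ∧ ∀ a ∈ K.outw, a.1 = Let.t)) → K.Gd

/-- (D6, second half) the gluing data of a good complex -/
def StmtLocK : Prop :=
  ∀ (S : Sys) (σ : Equiv.Perm S.C) (K : SqK σ), K.Gd →
    ∃ G : Glue σ, G.Red ∧ G.Lab ∧ G.Eul ∧ Fintype.card G.Q = Fintype.card K.F ∧
      ∀ Y : ℕ, 2 * (Fintype.card G.Q - domc G.X) + Y * (2 * (Fintype.card G.Q - domc G.Y)) ≤ K.W Y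

/-- (ISO') linear isoperimetric inequality for all good complexes -/
def StmtIso : Prop :=
  ∀ (c e1 : ℝ) (L : ℕ), 0 < c → 0 < e1 → ∃ K Y0 : ℕ, ∀ S : Sys, (∀ q : Port S, (S.ht q).natAbs ≤ L) →
    ∀ Y : ℕ, Y0 ≤ Y → ∀ (σ : Equiv.Perm S.C) (g : ℕ), c * Y ≤ g → Girth σ g →
      LocIso σ (K * Y) Y e1 → ∀ K' : SqK σ, K'.Gd → e1 / 2 * Fintype.card K'.F ≤ K'.W Y

end Vale.Agent.P201.S
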