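import Vale.Agent.P201.S.PC

/-!
P201, part F, blocks F5 and F7 (d) (helper475): cotree combinatorics.  Subtrees, centroid, subtrees are
bonds, components of the complement of a connected set are bonds.  All names live in the namespace
`Vale.Agent.P201.S.F5`.
-/

namespace Vale.Agent.P201.S.F5

open Finset

variable {A : Type} {K : PC A}

theorem rvrv {E : Type} (d : E × Bool) : rv (rv d) = d := by simp [rv]

theorem face_ex (d : K.E × Bool) : ∃ f, d ∈ K.bd f := by
  by_contra h
  push Not at h
  have := K.once d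
  rw [Finset.sum_eq_zero (fun f _ => List.count_eq_zero.mpr (h f))] at this
  exact absurd this (by decide)

theorem face_uniq {d : K.E × Bool} {f g : Option K.F} (hf : d ∈ K.bd f) (hg : d ∈ K.bd g) :
    f = g := by
  by_contra hne
  have h1 : 1 ≤ (K.bd f).count d := List.count_pos_iff.mpr hf
  have h2 : 1 ≤ (K.bd g).count d := List.count_pos_iff.mpr hg
  have h3 : (K.bd f).count d + (K.bd g).count d ≤ ∑ f, (K.bd f).count d := by
    rw [← Finset.sum_pair (f := fun x => (K.bd x).count d) hne]
    exact Finset.sum_le_sum_of_subset (Finset.subset_univ _)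
  rw [K.once d] at h3
  omega

theorem nodup_bd (f : Option K.F) : (K.bd f).Nodup := by
  rw [List.nodup_iff_count_le_one]
  intro d
  rw [← K.once d]
  exact Finset.single_le_sum (f := fun f => (K.bd f).count d) (fun _ _ => Nat.zero_le _)
    (Finset.mem_univ f)

/-- the side of a boundary edge -/
theorem mem_bdry_iff {C : Finset K.F} {e : K.E} : e ∈ K.bdry C ↔
    ∃ d : K.E × Bool, d.1 = e ∧ (∃ f ∈ C, d ∈ K.bd (some f)) ∧ ¬ (∃ f ∈ C, rv d ∈ K.bd (some f)) := by
  unfold PC.bdry
  simp only [mem_filter, mem_univ, true_and]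
  constructor
  · intro h
    by_cases h1 : ∃ f ∈ C, (e, true) ∈ K.bd (some f)
    · exact ⟨(e, true), rfl, h1, fun h2 => h ⟨fun _ => h2, fun _ => h1⟩⟩
    · refine ⟨(e, false), rfl, ?_, h1⟩
      by_contra h2
      exact h ⟨fun h3 => absurd h3 h1, fun h3 => absurd h3 h2⟩
  · rintro ⟨⟨e', b⟩, rfl, h1, h2⟩ h
    cases b
    · exact h2 (h.2 h1)
    · exact h2 (h.1 h1)

theorem mem_outE {e : K.E} : e ∈ K.outE ↔ ∃ d ∈ K.bd none, d.1 = e := by
  unfold PC.outE
  simp

/-- the ends of the darts of the outer boundary are origins of darts of the outer boundary -/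
theorem next_org {f : Option K.F} {d : K.E × Bool} (hd : d ∈ K.bd f) :
    ∃ d' ∈ K.bd f, K.org d' = K.org (rv d) := by
  obtain ⟨l1, l2, h⟩ := List.append_of_mem hd
  cases l2 with
  | nil =>
    have hl : d ∈ (K.bd f).getLast? := by rw [h]; simp
    obtain ⟨b, hb⟩ : ∃ b, b ∈ (K.bd f).head? := by
      rw [h]; cases l1 <;> simp
    exact ⟨b, List.mem_of_mem_head? hb, K.closed f d hl b hb⟩
  | cons b l2 =>
    refine ⟨b, by rw [h]; simp, ?_⟩
    have := K.chain f
    rw [h] at this
    rw [List.isChain_append_cons_cons] at this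
    exact this.2.1

/-! ### kids -/

variable (C : K.Cotree)

theorem dd_inj {f g : K.F} (h : C.dd f = C.dd g) : f = g :=
  Option.some.inj (face_uniq (C.mem f) (h ▸ C.mem g))

open Classical in
/-- the children of a face (or of the outer face) -/
noncomputable def kids (o : Option K.F) : Finset K.F := univ.filter fun g => C.par g = o

theorem mem_kids {o : Option K.F} {g : K.F} : g ∈ kids C o ↔ C.par g = o := by
  unfold kids
  simp

theorem mem_sub {f g : K.F} : g ∈ C.sub f ↔ C.Desc f g := by
  unfold PC.Cotree.sub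
  simp

theorem self_mem (f : K.F) : f ∈ C.sub f := (mem_sub C).2 Relation.ReflTransGen.refl

theorem desc_rank {f g : K.F} (h : C.Desc f g) : C.rank f ≤ C.rank g := by
  unfold PC.Cotree.Desc at h
  induction h with
  | refl => exact le_rfl
  | tail _ hbc ih => exact (C.dec _ _ hbc).le.trans ih

theorem kids_disj (o : Option K.F) : Set.PairwiseDisjoint (kids C o : Set K.F) C.sub := by
  intro g hg g' hg' hne
  change Disjoint _ _
  rw [Finset.disjoint_left]
  intro x hx hx'
  have h1 := (mem_sub C).1 hx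
  have h2 := (mem_sub C).1 hx'
  have hg1 := (mem_kids C).1 hg
  have hg2 := (mem_kids C).1 hg'
  have key : ∀ a b : K.F, C.par a = o → C.par b = o → a ≠ b →
      ¬ Relation.ReflTransGen (fun a b => C.par a = some b) a b := by
    intro a b ha hb hab h
    rcases Relation.ReflTransGen.cases_head h with h | ⟨y, h3, h4⟩
    · exact hab h
    · rw [ha] at h3
      subst h3
      have h6 := desc_rank C (f := b) (g := y) h4
      have h7 := C.dec _ _ hb
      omega
  rcases Relation.ReflTransGen.total_of_right_unique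
    (r := fun a b => C.par a = some b) (fun a b c hab hac => Option.some.inj (hab.symm.trans hac))
    h1 h2 with h | h
  · exact key g g' hg1 hg2 hne h
  · exact key g' g hg2 hg1 hne.symm h

theorem sub_eq (f : K.F) : C.sub f = insert f ((kids C (some f)).biUnion C.sub) := by
  ext g
  rw [mem_sub, Finset.mem_insert, Finset.mem_biUnion]
  constructor
  · intro h
    unfold PC.Cotree.Desc at h
    rcases Relation.ReflTransGen.cases_tail h with h | ⟨h', h1, h2⟩
    · exact Or.inl h.symm
    · exact Or.inr ⟨h', (mem_kids C).2 h2, (mem_sub C).2 h1⟩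
  · rintro (h | ⟨h', h1, h2⟩)
    · rw [h]; exact Relation.ReflTransGen.refl
    · exact Relation.ReflTransGen.tail ((mem_sub C).1 h2) ((mem_kids C).1 h1)

theorem card_sub (f : K.F) : (C.sub f).card = 1 + ∑ g ∈ kids C (some f), (C.sub g).card := by
  rw [sub_eq, Finset.card_insert_of_notMem, Finset.card_biUnion
    (fun a ha b hb hab => kids_disj C (some f) ha hb hab), add_comm]
  intro h
  obtain ⟨g, hg, h2⟩ := Finset.mem_biUnion.1 h
  have h3 := desc_rank C ((mem_sub C).1 h2)
  have h4 := C.dec _ _ ((mem_kids C).1 hg)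
  omega

theorem univ_eq : (univ : Finset K.F) = (kids C none).biUnion C.sub := by
  symm
  rw [Finset.eq_univ_iff_forall]
  have key : ∀ n : ℕ, ∀ x : K.F, C.rank x ≤ n → x ∈ (kids C none).biUnion C.sub := by
    intro n
    induction n with
    | zero =>
      intro x hx
      cases hp : C.par x with
      | none => exact Finset.mem_biUnion.2 ⟨x, (mem_kids C).2 hp, self_mem C x⟩
      | some y =>
        have := C.dec x y hp
        omega
    | succ n ih =>
      intro x hx
      cases hp : C.par x with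
      | none => exact Finset.mem_biUnion.2 ⟨x, (mem_kids C).2 hp, self_mem C x⟩
      | some y =>
        have h1 := C.dec x y hp
        obtain ⟨g, hg, h2⟩ := Finset.mem_biUnion.1 (ih y (by omega))
        exact Finset.mem_biUnion.2 ⟨g, hg, (mem_sub C).2
          (Relation.ReflTransGen.head hp ((mem_sub C).1 h2))⟩
  exact fun x => key _ x le_rfl

theorem card_univ : Fintype.card K.F = ∑ g ∈ kids C none, (C.sub g).card := by
  rw [← Finset.card_univ, univ_eq C, Finset.card_biUnion
    (fun a ha b hb hab => kids_disj C none ha hb hab)]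

theorem kids_card (o : Option K.F) : (kids C o).card ≤ (K.bd o).length := by
  calc (kids C o).card ≤ (K.bd o).toFinset.card := by
        refine Finset.card_le_card_of_injOn (fun g => rv (C.dd g)) ?_ ?_
        · intro g hg
          have := (mem_kids C).1 (Finset.mem_coe.1 hg)
          refine Finset.mem_coe.2 (List.mem_toFinset.2 ?_)
          rw [← this]
          exact C.memr g
        · intro g _ g' _ h
          have h2 : rv (rv (C.dd g)) = rv (rv (C.dd g')) := congrArg rv h
          rw [rvrv, rvrv] at h2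
          exact dd_inj C h2
    _ ≤ (K.bd o).length := List.toFinset_card_le _

/-- a big child -/
theorem big_kid (o : Option K.F) (Δ N M : ℕ) (hΔ : (K.bd o).length ≤ Δ)
    (hM : ∑ g ∈ kids C o, (C.sub g).card = M) (h4 : N ≤ 4 * M) (hN : 1 ≤ M) :
    ∃ g ∈ kids C o, N ≤ 4 * Δ * (C.sub g).card := by
  by_contra hcon
  push Not at hcon
  have hne : (kids C o).Nonempty := by
    rw [Finset.nonempty_iff_ne_empty]
    intro h
    rw [h] at hM
    simp at hM
    omega
  have h1 : ∑ g ∈ kids C o, (4 * Δ * (C.sub g).card) < ∑ g ∈ kids C o, N :=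
    Finset.sum_lt_sum_of_nonempty hne hcon
  rw [← Finset.mul_sum, hM, Finset.sum_const, smul_eq_mul] at h1
  have h2 : (kids C o).card * N ≤ Δ * N := Nat.mul_le_mul_right _ ((kids_card C o).trans hΔ)
  have h3 : Δ * N ≤ Δ * (4 * M) := Nat.mul_le_mul_left _ h4
  have h5 : Δ * (4 * M) = 4 * Δ * M := by ring
  omega

/-- **centroid**: from a subtree with more than `N / 2` faces we find one of balanced size -/
theorem centroid (Δ N : ℕ) (hΔ : ∀ f : K.F, (K.bd (some f)).length ≤ Δ) (hN : 2 ≤ N) (f0 : K.F)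
    (hf0 : N < 2 * (C.sub f0).card) :
    ∃ g : K.F, N ≤ 4 * Δ * (C.sub g).card ∧ 2 * (C.sub g).card ≤ N := by
  classical
  obtain ⟨f, hf, hmax⟩ := Finset.exists_max_image
    (univ.filter fun f : K.F => N < 2 * (C.sub f).card) C.rank ⟨f0, by simp [hf0]⟩
  rw [Finset.mem_filter] at hf
  have h1 := card_sub C f
  obtain ⟨g, hg, h2⟩ := big_kid C (some f) Δ N ((C.sub f).card - 1) (hΔ f) (by omega) (by omega)
    (by omega)
  refine ⟨g, h2, ?_⟩
  by_contra h3
  have h4 := hmax g (by simp; omega)
  have h5 := C.dec _ _ ((mem_kids C).1 hg)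
  omega

/-- sphere version of the centroid: all faces, also the outer one, have at most `Δ` darts -/
theorem centroid_sphere (Δ : ℕ) (hΔ : ∀ f : Option K.F, (K.bd f).length ≤ Δ)
    (hN : 1 ≤ Fintype.card K.F) :
    ∃ g : K.F, Fintype.card K.F + 1 ≤ 4 * Δ * (C.sub g).card ∧
      2 * (C.sub g).card ≤ Fintype.card K.F + 1 := by
  by_cases h : ∃ f0 : K.F, Fintype.card K.F + 1 < 2 * (C.sub f0).card
  · obtain ⟨f0, hf0⟩ := h
    exact centroid C Δ _ (fun f => hΔ _) (by omega) f0 hf0
  · push Not at h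
    obtain ⟨g, _, h2⟩ := big_kid C none Δ (Fintype.card K.F + 1) (Fintype.card K.F) (hΔ none)
      (card_univ C).symm (by omega) hN
    exact ⟨g, h2, h g⟩

/-! ### subtrees are bonds -/

/-- symmetric closure inside a set -/
theorem rtg_symm {α : Type} {r : α → α → Prop} {S : α → Prop} (hr : ∀ a b, r a b → r b a) {f g : α}
    (hf : S f) (h : Relation.ReflTransGen (fun a b => S b ∧ r a b) f g) :
    S g ∧ Relation.ReflTransGen (fun a b => S b ∧ r a b) g f := by
  induction h with
  | refl => exact ⟨hf, Relation.ReflTransGen.refl⟩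
  | tail _ hbc ih => exact ⟨hbc.1, Relation.ReflTransGen.head ⟨ih.1, hr _ _ hbc.2⟩ ih.2⟩

/-- dual adjacency -/
def Adj (K : PC A) (a b : Option K.F) : Prop := ∃ d, d ∈ K.bd a ∧ rv d ∈ K.bd b

theorem adj_symm (a b : Option K.F) (h : Adj K a b) : Adj K b a := by
  obtain ⟨d, h1, h2⟩ := h
  exact ⟨rv d, h2, by rw [rvrv]; exact h1⟩

theorem adj_par (g : K.F) : Adj K (some g) (C.par g) := ⟨C.dd g, C.mem g, C.memr g⟩

theorem sub_conn (f : K.F) : ∀ g ∈ C.sub f, Relation.ReflTransGen
    (fun a b => b ∈ C.sub f ∧ Adj K (some a) (some b)) g f := by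
  intro g hg
  have h := (mem_sub C).1 hg
  unfold PC.Cotree.Desc at h
  induction h using Relation.ReflTransGen.head_induction_on with
  | refl => exact Relation.ReflTransGen.refl
  | head h1 h2 ih =>
    refine Relation.ReflTransGen.head ⟨(mem_sub C).2 h2, ?_⟩ (ih ((mem_sub C).2 h2))
    have := adj_par C (K := K)
    rw [← h1]
    exact this _

theorem compl_conn (f : K.F) : ∀ g : Option K.F, (∀ x ∈ C.sub f, g ≠ some x) →
    Relation.ReflTransGen (fun a b => (∀ x ∈ C.sub f, b ≠ some x) ∧ Adj K a b) g none := by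
  have key : ∀ n : ℕ, ∀ g : K.F, C.rank g ≤ n → g ∉ C.sub f →
      Relation.ReflTransGen (fun a b => (∀ x ∈ C.sub f, b ≠ some x) ∧ Adj K a b) (some g) none := by
    intro n
    induction n with
    | zero =>
      intro g hg hgf
      cases hp : C.par g with
      | none => exact Relation.ReflTransGen.single ⟨fun x _ => by simp, hp ▸ adj_par C g⟩
      | some y =>
        have := C.dec g y hp
        omega
    | succ n ih =>
      intro g hg hgf
      cases hp : C.par g with
      | none => exact Relation.ReflTransGen.single ⟨fun x _ => by simp, hp ▸ adj_par C g⟩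
      | some y =>
        have h1 := C.dec g y hp
        have hy : y ∉ C.sub f := fun hy => hgf ((mem_sub C).2
          (Relation.ReflTransGen.head hp ((mem_sub C).1 hy)))
        refine Relation.ReflTransGen.head ⟨?_, hp ▸ adj_par C g⟩ (ih y (by omega) hy)
        rintro x hx h
        exact hy (Option.some.inj h ▸ hx)
  intro g hg
  cases g with
  | none => exact Relation.ReflTransGen.refl
  | some g => exact key _ g le_rfl (fun h => hg g h rfl)

theorem bond_of {B : Finset K.F} {f : K.F} (hf : f ∈ B)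
    (h1 : ∀ g ∈ B, Relation.ReflTransGen (fun a b => b ∈ B ∧ Adj K (some a) (some b)) g f)
    (h2 : ∀ g : Option K.F, (∀ x ∈ B, g ≠ some x) →
      Relation.ReflTransGen (fun a b => (∀ x ∈ B, b ≠ some x) ∧ Adj K a b) g none) : K.Bond B := by
  refine ⟨⟨f, hf⟩, ?_, ?_⟩
  · intro a ha b hb
    exact (h1 a ha).trans (rtg_symm (S := fun x => x ∈ B) (r := fun a b => Adj K (some a) (some b))
      (fun a b h => adj_symm _ _ h) hb (h1 b hb)).2
  · intro a b ha hb
    exact (h2 a ha).trans (rtg_symm (S := fun y => ∀ x ∈ B, y ≠ some x) (r := Adj K)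
      adj_symm hb (h2 b hb)).2

/-- subtrees are bonds -/
theorem sub_bond (f : K.F) : K.Bond (C.sub f) :=
  bond_of (self_mem C f) (sub_conn C f) (compl_conn C f)

/-! ### components -/

open Classical in
/-- component of `x` in `S` -/
noncomputable def cmp (K : PC A) (S : Finset K.F) (x : K.F) : Finset K.F :=
  univ.filter fun y => Relation.ReflTransGen (fun a b => b ∈ S ∧ Adj K (some a) (some b)) x y

variable {S : Finset K.F}

theorem mem_cmp {x y : K.F} : y ∈ cmp K S x ↔
    Relation.ReflTransGen (fun a b => b ∈ S ∧ Adj K (some a) (some b)) x y := by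
  unfold cmp
  simp

theorem cmp_self (x : K.F) : x ∈ cmp K S x := mem_cmp.2 Relation.ReflTransGen.refl

theorem cmp_sub {x : K.F} (hx : x ∈ S) : cmp K S x ⊆ S := by
  intro y hy
  exact (rtg_symm (S := fun x => x ∈ S) (r := fun a b => Adj K (some a) (some b))
      (fun a b h => adj_symm _ _ h) hx (mem_cmp.1 hy)).1

theorem cmp_symm {x y : K.F} (hx : x ∈ S) (hy : y ∈ cmp K S x) : x ∈ cmp K S y :=
  mem_cmp.2 (rtg_symm (S := fun x => x ∈ S) (r := fun a b => Adj K (some a) (some b))
      (fun a b h => adj_symm _ _ h) hx (mem_cmp.1 hy)).2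

theorem cmp_trans {x y z : K.F} (hy : y ∈ cmp K S x) (hz : z ∈ cmp K S y) : z ∈ cmp K S x :=
  mem_cmp.2 ((mem_cmp.1 hy).trans (mem_cmp.1 hz))

theorem cmp_eq {x y : K.F} (hx : x ∈ S) (hy : y ∈ cmp K S x) : cmp K S y = cmp K S x := by
  ext z
  exact ⟨fun h => cmp_trans hy h, fun h => cmp_trans (cmp_symm hx hy) h⟩

theorem cmp_step {x y z : K.F} (hy : y ∈ cmp K S x) (hz : z ∈ S) (h : Adj K (some y) (some z)) :
    z ∈ cmp K S x := mem_cmp.2 ((mem_cmp.1 hy).tail ⟨hz, h⟩)

theorem cmp_conn (x : K.F) : ∀ g ∈ cmp K S x, Relation.ReflTransGen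
    (fun a b => b ∈ cmp K S x ∧ Adj K (some a) (some b)) g x := by
  intro g hg
  have h1 : Relation.ReflTransGen (fun a b => b ∈ cmp K S x ∧ Adj K (some a) (some b)) x g := by
    have h := mem_cmp.1 hg
    induction h with
    | refl => exact Relation.ReflTransGen.refl
    | tail h1 h2 ih =>
      exact Relation.ReflTransGen.tail (ih (mem_cmp.2 h1)) ⟨mem_cmp.2 (h1.tail h2), h2.2⟩
  exact (rtg_symm (S := fun y => y ∈ cmp K S x) (r := fun a b => Adj K (some a) (some b))
      (fun _ _ h => adj_symm _ _ h) (cmp_self x) h1).2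

/-- a path to `none` leaves the component and arrives outside of `S` -/
theorem cmp_exit {x : K.F} :
    ∃ a ∈ cmp K S x, ∃ b : Option K.F, (∀ y ∈ S, b ≠ some y) ∧ Adj K (some a) b := by
  have h := K.dconn (some x) none
  by_contra hcon
  push Not at hcon
  have key : ∀ g : Option K.F, Relation.ReflTransGen (fun a b => ∃ d, d ∈ K.bd a ∧ rv d ∈ K.bd b)
      (some x) g → ∃ y ∈ cmp K S x, g = some y := by
    intro g hg
    induction hg with
    | refl => exact ⟨x, cmp_self x, rfl⟩
    | tail h1 h2 ih =>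
      rename_i b c
      obtain ⟨y, hy, rfl⟩ := ih
      by_contra hc
      push Not at hc
      refine hcon y hy c ?_ h2
      rintro z hz rfl
      exact hc z (cmp_step hy hz h2) rfl
  obtain ⟨y, _, hy⟩ := key none h
  exact absurd hy (by simp)

/-- components of a set with connected complement are bonds -/
theorem cmp_bond (hS : ∀ g : Option K.F, (∀ x ∈ S, g ≠ some x) →
      Relation.ReflTransGen (fun a b => (∀ x ∈ S, b ≠ some x) ∧ Adj K a b) g none)
    {x : K.F} (hx : x ∈ S) : K.Bond (cmp K S x) := by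
  refine bond_of (cmp_self x) (cmp_conn x) ?_
  have key : ∀ g : Option K.F, (∀ x ∈ S, g ≠ some x) →
      Relation.ReflTransGen (fun a b => (∀ y ∈ cmp K S x, b ≠ some y) ∧ Adj K a b) g none := by
    intro g hg
    refine Relation.ReflTransGen.mono ?_ _ _ (hS g hg)
    rintro a b ⟨h1, h2⟩
    exact ⟨fun y hy => h1 y (cmp_sub hx hy), h2⟩
  intro g hg
  by_cases h : ∀ x ∈ S, g ≠ some x
  · exact key g h
  · push Not at h
    obtain ⟨y, hy, rfl⟩ := h
    obtain ⟨a, ha, b, hb, hab⟩ := cmp_exit (S := S) (x := y)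
    have hdis : ∀ z ∈ cmp K S y, z ∉ cmp K S x := by
      intro z hz hz2
      have h1 : y ∈ cmp K S x := cmp_trans hz2 (cmp_symm hy hz)
      exact hg y h1 rfl
    have h2 : Relation.ReflTransGen (fun a b => (∀ y ∈ cmp K S x, b ≠ some y) ∧ Adj K a b)
        (some y) (some a) := by
      have h3 := mem_cmp.1 ha
      clear hab
      induction h3 with
      | refl => exact Relation.ReflTransGen.refl
      | tail h1 h2 ih =>
        rename_i b' c'
        refine Relation.ReflTransGen.tail (ih (mem_cmp.2 h1)) ⟨?_, h2.2⟩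
        rintro z hz hc
        exact hdis c' (mem_cmp.2 (h1.tail h2)) (Option.some.inj hc ▸ hz)
    refine h2.trans (Relation.ReflTransGen.head ⟨?_, hab⟩ (key b hb))
    intro z hz hc
    exact hb z (cmp_sub hx hz) hc

/-- the boundary edges of a component have their other side outside of `S` -/
theorem bdry_cmp {x : K.F} {e : K.E} (he : e ∈ K.bdry (cmp K S x)) :
    ∃ d : K.E × Bool, d.1 = e ∧ (∃ f ∈ cmp K S x, d ∈ K.bd (some f)) ∧
      ¬ (∃ f ∈ S, rv d ∈ K.bd (some f)) := by
  obtain ⟨d, h1, ⟨f, hf, h2⟩, h3⟩ := mem_bdry_iff.1 he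
  refine ⟨d, h1, ⟨f, hf, h2⟩, ?_⟩
  rintro ⟨g, hg, h4⟩
  exact h3 ⟨g, cmp_step hf hg ⟨d, h2, h4⟩, h4⟩

theorem bdry_cmp_subset {x : K.F} (hx : x ∈ S) : K.bdry (cmp K S x) ⊆ K.bdry S := by
  intro e he
  obtain ⟨d, h1, ⟨f, hf, h2⟩, h3⟩ := bdry_cmp he
  exact mem_bdry_iff.2 ⟨d, h1, ⟨f, cmp_sub hx hf, h2⟩, h3⟩

theorem bdry_cmp_disj {x y : K.F} (hx : x ∈ S) (hy : y ∈ S) (h : cmp K S x ≠ cmp K S y) :
    Disjoint (K.bdry (cmp K S x)) (K.bdry (cmp K S y)) := by
  rw [Finset.disjoint_left]
  intro e he he'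
  obtain ⟨d, h1, ⟨f, hf, h2⟩, h3⟩ := bdry_cmp he
  obtain ⟨d', h1', ⟨f', hf', h2'⟩, h3'⟩ := bdry_cmp he'
  have hd : d = d' := by
    obtain ⟨e1, b⟩ := d
    obtain ⟨e2, b'⟩ := d'
    simp only at h1 h1'
    subst h1 h1'
    by_contra hne
    have hb : b' = !b := by
      cases b <;> cases b' <;> simp_all
    subst hb
    exact h3 ⟨f', cmp_sub hy hf', h2'⟩
  subst hd
  have hff := Option.some.inj (face_uniq h2 h2')
  subst hff
  exact h ((cmp_eq hx hf).symm.trans (cmp_eq hy hf'))

/-- isoperimetry for a set with connected complement from the isoperimetry of bonds, for a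
subadditive function -/
theorem iso_of_bonds (hS : ∀ g : Option K.F, (∀ x ∈ S, g ≠ some x) →
      Relation.ReflTransGen (fun a b => (∀ x ∈ S, b ≠ some x) ∧ Adj K a b) g none)
    (w : K.E → ℝ) (hw : ∀ e, 0 ≤ w e) (psi : ℕ → ℝ) (psi0 : psi 0 ≤ 0)
    (hsub : ∀ a b, psi (a + b) ≤ psi a + psi b)
    (hB : ∀ B ⊆ S, K.Bond B → psi B.card ≤ ∑ e ∈ K.bdry B, w e) :
    psi S.card ≤ ∑ e ∈ K.bdry S, w e := by
  classical
  set I : Finset (Finset K.F) := S.image (cmp K S) with hI
  have h1 : S = I.biUnion (fun B => B) := by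
    ext f
    rw [Finset.mem_biUnion]
    constructor
    · intro hf
      exact ⟨cmp K S f, Finset.mem_image_of_mem _ hf, cmp_self f⟩
    · rintro ⟨B, hB, hf⟩
      obtain ⟨x, hx, rfl⟩ := Finset.mem_image.1 hB
      exact cmp_sub hx hf
  have hsum : ∀ J : Finset (Finset K.F), psi (∑ B ∈ J, B.card) ≤ ∑ B ∈ J, psi B.card := by
    intro J
    induction J using Finset.induction_on with
    | empty => simpa using psi0
    | insert a J ha ih =>
      rw [Finset.sum_insert ha, Finset.sum_insert ha]
      exact (hsub _ _).trans (by linarith)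
  have hdisj : ∀ B ∈ I, ∀ B' ∈ I, B ≠ B' → Disjoint B B' := by
    intro B hB B' hB' hne
    obtain ⟨x, hx, rfl⟩ := Finset.mem_image.1 hB
    obtain ⟨y, hy, rfl⟩ := Finset.mem_image.1 hB'
    rw [Finset.disjoint_left]
    intro z hz hz'
    exact hne ((cmp_eq hx hz).symm.trans (cmp_eq hy hz'))
  have h2 : S.card = ∑ B ∈ I, B.card := by
    conv_lhs => rw [h1]
    rw [Finset.card_biUnion (fun B hB B' hB' hne => hdisj B hB B' hB' hne)]
  calc psi S.card = psi (∑ B ∈ I, B.card) := by rw [← h2]
    _ ≤ ∑ B ∈ I, psi B.card := hsum I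
    _ ≤ ∑ B ∈ I, ∑ e ∈ K.bdry B, w e := by
        refine Finset.sum_le_sum fun B hB' => ?_
        obtain ⟨x, hx, rfl⟩ := Finset.mem_image.1 hB'
        exact hB _ (cmp_sub hx) (cmp_bond hS hx)
    _ = ∑ e ∈ I.biUnion K.bdry, w e := by
        rw [Finset.sum_biUnion]
        intro B hB' B' hB'' hne
        obtain ⟨x, hx, rfl⟩ := Finset.mem_image.1 (Finset.mem_coe.1 hB')
        obtain ⟨y, hy, rfl⟩ := Finset.mem_image.1 (Finset.mem_coe.1 hB'')
        exact bdry_cmp_disj hx hy hne
    _ ≤ ∑ e ∈ K.bdry S, w e := by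
        refine Finset.sum_le_sum_of_subset_of_nonneg ?_ (fun e _ _ => hw e)
        intro e he
        obtain ⟨B, hB', he'⟩ := Finset.mem_biUnion.1 he
        obtain ⟨x, hx, rfl⟩ := Finset.mem_image.1 hB'
        exact bdry_cmp_subset hx he'

end Vale.Agent.P201.S.F5
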