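import Vale.Agent.P201.S.PC

/-!
P201, part F: deleting an edge between an inner face and the outer face (helper402).
-/

namespace Vale.Agent.P201.S.Dl

open Finset


theorem rv_rv {E : Type} (d : E × Bool) : rv (rv d) = d := by
  simp [rv]

theorem dart_cases {E : Type} {x d : E × Bool} (h : x.1 = d.1) : x = d ∨ x = rv d := by
  obtain ⟨e, b⟩ := x
  obtain ⟨e', b'⟩ := d
  simp only at h
  subst h
  cases b <;> cases b' <;> simp [rv]

variable {A : Type}

section
variable (K : PC A)

theorem exists_face (d : K.E × Bool) : ∃ f, d ∈ K.bd f := by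
  by_contra h
  push Not at h
  have := K.once d
  rw [Finset.sum_eq_zero (fun f _ => List.count_eq_zero.mpr (h f))] at this
  exact absurd this (by decide)

variable {K}

theorem face_unique {d : K.E × Bool} {f g : Option K.F} (hf : d ∈ K.bd f) (hg : d ∈ K.bd g) :
    f = g := by
  by_contra hne
  have h1 : 1 ≤ (K.bd f).count d := List.count_pos_iff.mpr hf
  have h2 : 1 ≤ (K.bd g).count d := List.count_pos_iff.mpr hg
  have h3 : (K.bd f).count d + (K.bd g).count d ≤ ∑ f, (K.bd f).count d := by
    rw [← Finset.sum_pair (f := fun x => (K.bd x).count d) hne]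
    exact Finset.sum_le_sum_of_subset (Finset.subset_univ _)
  rw [K.once d] at h3
  omega

end

section path

variable {V E : Type} (org : E × Bool → V)

/-- `l` is a walk from `u` to `v` -/
def IsPath : V → List (E × Bool) → V → Prop
  | u, [], v => u = v
  | u, a :: l, v => org a = u ∧ IsPath (org (rv a)) l v

theorem isPath_append {u v : V} {l m : List (E × Bool)} :
    IsPath org u (l ++ m) v ↔ ∃ w, IsPath org u l w ∧ IsPath org w m v := by
  induction l generalizing u with
  | nil => simp [IsPath]
  | cons a l ih =>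
    simp only [List.cons_append, IsPath, ih]
    constructor
    · rintro ⟨h1, w, h2, h3⟩
      exact ⟨w, ⟨h1, h2⟩, h3⟩
    · rintro ⟨w, ⟨h1, h2⟩, h3⟩
      exact ⟨h1, w, h2, h3⟩

theorem isPath_of_chain {a : E × Bool} {l : List (E × Bool)}
    (h : (a :: l).IsChain (fun a b => org b = org (rv a))) :
    IsPath org (org a) (a :: l) (org (rv ((a :: l).getLast (List.cons_ne_nil _ _)))) := by
  induction l generalizing a with
  | nil => exact ⟨rfl, rfl⟩
  | cons b l ih =>
    obtain ⟨h1, h2⟩ := List.isChain_cons_cons.1 h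
    refine ⟨rfl, ?_⟩
    have := ih h2
    rw [h1] at this
    rw [List.getLast_cons (List.cons_ne_nil _ _)]
    exact this

theorem chain_of_isPath {u v : V} {l : List (E × Bool)} (h : IsPath org u l v) :
    l.IsChain (fun a b => org b = org (rv a)) := by
  induction l generalizing u with
  | nil => exact List.isChain_nil
  | cons a l ih =>
    obtain ⟨h1, h2⟩ := h
    cases l with
    | nil => exact List.isChain_singleton _
    | cons b l => exact List.isChain_cons_cons.2 ⟨h2.1, ih h2⟩

theorem last_of_isPath {u v : V} {l : List (E × Bool)} (h : IsPath org u l v) :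
    ∀ a ∈ l.getLast?, org (rv a) = v := by
  induction l generalizing u with
  | nil => simp
  | cons a l ih =>
    obtain ⟨h1, h2⟩ := h
    cases l with
    | nil =>
      intro b hb
      simp only [List.getLast?_singleton, Option.mem_def, Option.some.injEq] at hb
      subst hb
      exact h2
    | cons b l =>
      intro c hc
      rw [List.getLast?_cons_cons] at hc
      exact ih h2 c hc

theorem head_of_isPath {u v : V} {l : List (E × Bool)} (h : IsPath org u l v) :
    ∀ a ∈ l.head?, org a = u := by
  cases l with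
  | nil => simp
  | cons a l =>
    intro b hb
    simp only [List.head?_cons, Option.mem_def, Option.some.injEq] at hb
    subst hb
    exact h.1

theorem closed_of_isPath {u : V} {l : List (E × Bool)} (h : IsPath org u l u) :
    ∀ a ∈ l.getLast?, ∀ b ∈ l.head?, org b = org (rv a) := by
  intro a ha b hb
  rw [head_of_isPath org h b hb, last_of_isPath org h a ha]

theorem isPath_of_closed {l : List (E × Bool)}
    (h : l.IsChain (fun a b => org b = org (rv a)))
    (hc : ∀ a ∈ l.getLast?, ∀ b ∈ l.head?, org b = org (rv a)) (hl : l ≠ []) :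
    ∃ u, IsPath org u l u := by
  cases l with
  | nil => exact absurd rfl hl
  | cons a l =>
    refine ⟨org a, ?_⟩
    have h1 := isPath_of_chain org h
    have h2 := hc ((a :: l).getLast (List.cons_ne_nil _ _))
      (by rw [List.getLast?_eq_getLast_of_ne_nil (List.cons_ne_nil _ _)]; exact rfl) a rfl
    rw [← h2] at h1
    exact h1

theorem isPath_reach {u v : V} {l : List (E × Bool)} (h : IsPath org u l v)
    (R : V → V → Prop) (hR : ∀ x ∈ l, R (org x) (org (rv x))) : Relation.ReflTransGen R u v := by
  induction l generalizing u with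
  | nil =>
    have : u = v := h
    subst this
    exact Relation.ReflTransGen.refl
  | cons a l ih =>
    obtain ⟨h1, h2⟩ := h
    subst h1
    exact Relation.ReflTransGen.head (hR a List.mem_cons_self)
      (ih h2 (fun x hx => hR x (List.mem_cons_of_mem _ hx)))

end path

variable (K : PC A)

theorem isPath_bd {f : Option K.F} (h : K.bd f ≠ []) : ∃ u, IsPath K.org u (K.bd f) u :=
  isPath_of_closed K.org (K.chain f) (K.closed f) h

theorem count_bd_le (f : Option K.F) (x : K.E × Bool) : (K.bd f).count x ≤ 1 := by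
  rw [← K.once x]
  exact Finset.single_le_sum (f := fun f => (K.bd f).count x) (fun _ _ => Nat.zero_le _)
    (Finset.mem_univ f)

/-- restriction of a list of darts to the edges `≠ e0` -/
def rest {E : Type} [DecidableEq E] (e0 : E) (l : List (E × Bool)) :
    List ({e : E // e ≠ e0} × Bool) :=
  l.filterMap (fun x => if h : x.1 ≠ e0 then some (⟨x.1, h⟩, x.2) else none)

/-- embedding of darts -/
def emb {E : Type} {e0 : E} (x : {e : E // e ≠ e0} × Bool) : E × Bool := (x.1.1, x.2)

theorem emb_inj {E : Type} {e0 : E} {x y : {e : E // e ≠ e0} × Bool} (h : emb x = emb y) :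
    x = y := by
  obtain ⟨⟨a, ha⟩, b⟩ := x
  obtain ⟨⟨a', ha'⟩, b'⟩ := y
  simp only [emb, Prod.mk.injEq] at h
  obtain ⟨rfl, rfl⟩ := h
  rfl

theorem emb_rv {E : Type} {e0 : E} (x : {e : E // e ≠ e0} × Bool) : emb (rv x) = rv (emb x) := rfl

theorem rest_map {E : Type} [DecidableEq E] {e0 : E} {l : List (E × Bool)}
    (h : ∀ x ∈ l, x.1 ≠ e0) : (rest e0 l).map emb = l := by
  induction l with
  | nil => rfl
  | cons a l ih =>
    have h1 : a.1 ≠ e0 := h a List.mem_cons_self
    have h2 := ih (fun x hx => h x (List.mem_cons_of_mem _ hx))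
    unfold rest at h2 ⊢
    rw [List.filterMap_cons_some (b := (⟨a.1, h1⟩, a.2)) (by simp [h1])]
    rw [List.map_cons, h2]
    rfl

theorem count_map_emb {E : Type} [DecidableEq E] {e0 : E} (l : List ({e : E // e ≠ e0} × Bool))
    (x : {e : E // e ≠ e0} × Bool) : (l.map emb).count (emb x) = l.count x :=
  List.count_map_of_injective _ _ (fun _ _ h => emb_inj h) _

theorem isPath_emb {V E : Type} {e0 : E} (org : E × Bool → V) {u v : V}
    {l : List ({e : E // e ≠ e0} × Bool)} :
    IsPath (fun x => org (emb x)) u l v ↔ IsPath org u (l.map emb) v := by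
  induction l generalizing u with
  | nil => exact Iff.rfl
  | cons a l ih =>
    simp only [IsPath, List.map_cons, ih]
    rfl

/-- data of a deletion -/
structure DelData where
  g : K.F
  d : K.E × Bool
  l1 : List (K.E × Bool)
  l2 : List (K.E × Bool)
  m1 : List (K.E × Bool)
  m2 : List (K.E × Bool)
  hn : K.bd none = l1 ++ rv d :: l2
  hg : K.bd (some g) = m1 ++ d :: m2

theorem exists_delData {g : K.F} {d : K.E × Bool} (hd : d ∈ K.bd (some g))
    (hr : rv d ∈ K.bd none) : ∃ D : DelData K, D.g = g ∧ D.d = d := by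
  obtain ⟨l1, l2, h1⟩ := List.append_of_mem hr
  obtain ⟨m1, m2, h2⟩ := List.append_of_mem hd
  exact ⟨⟨g, d, l1, l2, m1, m2, h1, h2⟩, rfl, rfl⟩

namespace DelData

variable {K} (D : DelData K)

theorem mem_g : D.d ∈ K.bd (some D.g) := by rw [D.hg]; simp

theorem mem_n : rv D.d ∈ K.bd none := by rw [D.hn]; simp

/-- the merged boundary in `K` -/
def mer : List (K.E × Bool) := D.l1 ++ ((D.m2 ++ D.m1) ++ D.l2)

theorem ne_of_mem_some {f : K.F} (hf : f ≠ D.g) {x : K.E × Bool} (hx : x ∈ K.bd (some f)) :
    x.1 ≠ D.d.1 := by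
  intro h
  have h2 : x = D.d ∨ x = rv D.d := dart_cases h
  rcases h2 with rfl | rfl
  · exact hf (Option.some_injective _ (face_unique hx D.mem_g))
  · have := face_unique hx D.mem_n
    exact absurd this (by simp)

theorem rv_ne : rv D.d ≠ D.d := by
  intro h
  have := congrArg Prod.snd h
  simp [rv] at this

theorem ne_of_mem_mer {x : K.E × Bool} (hx : x ∈ D.mer) : x.1 ≠ D.d.1 := by
  intro h
  have h2 : x = D.d ∨ x = rv D.d := dart_cases h
  have hn1 := count_bd_le K none (rv D.d)
  have hg1 := count_bd_le K (some D.g) D.d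
  have hdn : D.d ∉ K.bd none := fun h => by
    have := face_unique h D.mem_g
    exact absurd this (by simp)
  have hrg : rv D.d ∉ K.bd (some D.g) := fun h => by
    have := face_unique h D.mem_n
    exact absurd this (by simp)
  rw [D.hn] at hn1 hdn
  rw [D.hg] at hg1 hrg
  simp only [List.count_append, List.count_cons_self] at hn1 hg1
  simp only [List.mem_append, List.mem_cons, not_or] at hdn hrg
  have e1 : (D.l1).count (rv D.d) = 0 := by omega
  have e2 : (D.l2).count (rv D.d) = 0 := by omega
  have e3 : (D.m1).count (D.d) = 0 := by omega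
  have e4 : (D.m2).count (D.d) = 0 := by omega
  rw [List.count_eq_zero] at e1 e2 e3 e4
  unfold mer at hx
  simp only [List.mem_append] at hx
  rcases h2 with rfl | rfl
  · rcases hx with hx | (hx | hx) | hx
    · exact hdn.1 hx
    · exact e4 hx
    · exact e3 hx
    · exact hdn.2.2 hx
  · rcases hx with hx | (hx | hx) | hx
    · exact e1 hx
    · exact hrg.2.2 hx
    · exact hrg.1 hx
    · exact e2 hx

/-- new face lists -/
def nbd : Option {f : K.F // f ≠ D.g} → List ({e : K.E // e ≠ D.d.1} × Bool)
  | none => rest D.d.1 D.mer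
  | some f => rest D.d.1 (K.bd (some f.1))

theorem nbd_none : (D.nbd none).map emb = D.mer := rest_map (fun _ h => D.ne_of_mem_mer h)

theorem nbd_some (f : {f : K.F // f ≠ D.g}) : (D.nbd (some f)).map emb = K.bd (some f.1) :=
  rest_map (fun _ h => D.ne_of_mem_some f.2 h)

theorem path_g : IsPath K.org (K.org (rv D.d)) (D.m2 ++ D.m1) (K.org D.d) := by
  obtain ⟨u, hu⟩ := isPath_bd K (f := some D.g) (K.ne D.g)
  rw [D.hg, isPath_append] at hu
  obtain ⟨w, h1, h2, h3⟩ := hu
  rw [isPath_append]
  exact ⟨u, h3, h2.symm ▸ h1⟩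

theorem path_n : ∃ u, IsPath K.org u D.l1 (K.org (rv D.d)) ∧ IsPath K.org (K.org D.d) D.l2 u := by
  have hne : K.bd none ≠ [] := by rw [D.hn]; simp
  obtain ⟨u, hu⟩ := isPath_bd K hne
  rw [D.hn, isPath_append] at hu
  obtain ⟨w, h1, h2, h3⟩ := hu
  rw [rv_rv] at h3
  exact ⟨u, h2.symm ▸ h1, h3⟩

theorem path_mer : ∃ u, IsPath K.org u D.mer u := by
  obtain ⟨u, h1, h2⟩ := D.path_n
  refine ⟨u, ?_⟩
  unfold mer
  rw [isPath_append]
  refine ⟨_, h1, ?_⟩
  rw [isPath_append]
  exact ⟨_, D.path_g, h2⟩

/-- image of a face in the new complex -/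
def ph : Option K.F → Option {f : K.F // f ≠ D.g}
  | none => none
  | some f => if h : f ≠ D.g then some ⟨f, h⟩ else none

theorem ph_none : D.ph none = none := rfl

theorem ph_some {f : K.F} (h : f ≠ D.g) : D.ph (some f) = some ⟨f, h⟩ := by
  unfold ph
  simp only
  rw [dif_pos h]

theorem ph_g {f : K.F} (h : ¬ f ≠ D.g) : D.ph (some f) = none := by
  unfold ph
  simp only
  rw [dif_neg h]

theorem mem_ph {x : {e : K.E // e ≠ D.d.1} × Bool} {a : Option K.F} (h : emb x ∈ K.bd a) :
    x ∈ D.nbd (D.ph a) := by
  have key : ∀ l : List ({e : K.E // e ≠ D.d.1} × Bool), emb x ∈ l.map emb → x ∈ l := by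
    intro l hl
    obtain ⟨y, hy, he⟩ := List.mem_map.1 hl
    rw [← emb_inj he]
    exact hy
  cases a with
  | none =>
    apply key
    show emb x ∈ (D.nbd none).map emb
    rw [nbd_none]
    rw [D.hn] at h
    simp only [List.mem_append, List.mem_cons] at h
    unfold mer
    simp only [List.mem_append]
    rcases h with h | h | h
    · exact Or.inl h
    · exfalso
      exact x.1.2 (by have := congrArg Prod.fst h; exact this)
    · exact Or.inr (Or.inr h)
  | some f =>
    by_cases hf : f ≠ D.g
    · rw [D.ph_some hf]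
      apply key
      rw [nbd_some]
      exact h
    · rw [D.ph_g hf]
      apply key
      rw [nbd_none]
      push Not at hf
      rw [hf, D.hg] at h
      simp only [List.mem_append, List.mem_cons] at h
      unfold mer
      simp only [List.mem_append]
      rcases h with h | h | h
      · exact Or.inr (Or.inl (Or.inr h))
      · exfalso
        exact x.1.2 (by have := congrArg Prod.fst h; exact this)
      · exact Or.inr (Or.inl (Or.inl h))

theorem ph_val (f : Option {f : K.F // f ≠ D.g}) : D.ph (f.map Subtype.val) = f := by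
  cases f with
  | none => rfl
  | some f => exact D.ph_some f.2

/-- the complex after deleting the edge of `d` -/
def del : PC A where
  V := K.V
  E := {e : K.E // e ≠ D.d.1}
  F := {f : K.F // f ≠ D.g}
  org := fun x => K.org (emb x)
  lab := fun e => K.lab e.1
  bd := D.nbd
  chain := by
    intro f
    cases f with
    | none =>
      obtain ⟨u, hu⟩ := D.path_mer
      rw [← nbd_none, ← isPath_emb] at hu
      exact chain_of_isPath _ hu
    | some f =>
      obtain ⟨u, hu⟩ := isPath_bd K (K.ne f.1)
      rw [← nbd_some, ← isPath_emb] at hu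
      exact chain_of_isPath _ hu
  closed := by
    intro f
    cases f with
    | none =>
      obtain ⟨u, hu⟩ := D.path_mer
      rw [← nbd_none, ← isPath_emb] at hu
      exact closed_of_isPath _ hu
    | some f =>
      obtain ⟨u, hu⟩ := isPath_bd K (K.ne f.1)
      rw [← nbd_some, ← isPath_emb] at hu
      exact closed_of_isPath _ hu
  once := by
    intro x
    have h0 := K.once (emb x)
    rw [Fintype.sum_option] at h0
    have hn : (D.nbd none).count x = (K.bd none).count (emb x) + (K.bd (some D.g)).count (emb x) := by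
      rw [← count_map_emb, nbd_none, D.hn, D.hg]
      unfold mer
      have h1 : (emb x : K.E × Bool) ≠ D.d := fun h => x.1.2 (congrArg Prod.fst h)
      have h2 : (emb x : K.E × Bool) ≠ rv D.d := fun h => x.1.2 (congrArg Prod.fst h)
      simp only [List.count_append, List.count_cons_of_ne h1.symm, List.count_cons_of_ne h2.symm]
      omega
    have hs : ∑ f : {f : K.F // f ≠ D.g}, (D.nbd (some f)).count x
        = ∑ f : {f : K.F // f ≠ D.g}, (K.bd (some f.1)).count (emb x) := by
      refine Finset.sum_congr rfl fun f _ => ?_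
      rw [← count_map_emb, nbd_some]
    have h3 : ∑ f : K.F, (K.bd (some f)).count (emb x) = (K.bd (some D.g)).count (emb x)
        + ∑ f : {f : K.F // f ≠ D.g}, (K.bd (some f.1)).count (emb x) := by
      rw [Fintype.sum_eq_add_sum_subtype_ne _ D.g]
    rw [h3] at h0
    have h4 : (D.nbd none).count x + ∑ f : {f : K.F // f ≠ D.g}, (D.nbd (some f)).count x = 1 := by
      rw [hs, hn]
      omega
    rw [Fintype.sum_option]
    convert h4
  ne := by
    intro f h
    have := D.nbd_some f
    rw [h] at this
    exact K.ne f.1 this.symm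
  conn := by
    intro u v
    let R : K.V → K.V → Prop := fun a b => ∃ d : {e : K.E // e ≠ D.d.1} × Bool,
      K.org (emb d) = a ∧ K.org (emb (rv d)) = b
    have hsym : ∀ a b, R a b → R b a := by
      rintro a b ⟨x, h1, h2⟩
      exact ⟨rv x, h2, by rw [emb_rv, emb_rv, rv_rv]; exact h1⟩
    have hsymT : ∀ a b, Relation.ReflTransGen R a b → Relation.ReflTransGen R b a := by
      intro a b h
      induction h with
      | refl => exact Relation.ReflTransGen.refl
      | tail _ h2 ih => exact Relation.ReflTransGen.head (hsym _ _ h2) ih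
    have hstep : ∀ x : K.E × Bool, x.1 ≠ D.d.1 → R (K.org x) (K.org (rv x)) := by
      intro x hx
      exact ⟨(⟨x.1, hx⟩, x.2), rfl, rfl⟩
    have hdd : Relation.ReflTransGen R (K.org (rv D.d)) (K.org D.d) := by
      refine isPath_reach K.org D.path_g R fun x hx => hstep x ?_
      apply D.ne_of_mem_mer
      unfold mer
      simp only [List.mem_append] at hx ⊢
      exact Or.inr (Or.inl hx)
    have hdd' : Relation.ReflTransGen R (K.org D.d) (K.org (rv D.d)) :=
      hsymT _ _ hdd
    have hall : ∀ a b, (∃ d, K.org d = a ∧ K.org (rv d) = b) → Relation.ReflTransGen R a b := by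
      rintro a b ⟨x, rfl, rfl⟩
      by_cases hx : x.1 ≠ D.d.1
      · exact Relation.ReflTransGen.single (hstep x hx)
      · push Not at hx
        have h2 : x = D.d ∨ x = rv D.d := dart_cases hx
        rcases h2 with rfl | rfl
        · exact hdd'
        · rw [rv_rv]; exact hdd
    exact Relation.ReflTransGen.trans_induction_on
      (motive := fun {a b} _ => Relation.ReflTransGen R a b) (K.conn u v)
      (fun _ => Relation.ReflTransGen.refl) (fun h => hall _ _ h) (fun _ _ h1 h2 => h1.trans h2)
  dconn := by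
    intro f f'
    have hall : ∀ a b : Option K.F, (∃ d, d ∈ K.bd a ∧ rv d ∈ K.bd b) →
        Relation.ReflTransGen (fun a b => ∃ d, d ∈ D.nbd a ∧ rv d ∈ D.nbd b) (D.ph a) (D.ph b) := by
      rintro a b ⟨x, h1, h2⟩
      by_cases hx : x.1 ≠ D.d.1
      · refine Relation.ReflTransGen.single ⟨(⟨x.1, hx⟩, x.2), ?_, ?_⟩
        · exact D.mem_ph (x := (⟨x.1, hx⟩, x.2)) h1
        · exact D.mem_ph (x := rv (⟨x.1, hx⟩, x.2)) h2
      · push Not at hx
        have hab : ∀ y : K.E × Bool, y.1 = D.d.1 → ∀ c, y ∈ K.bd c → D.ph c = none := by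
          intro y hy c hc
          cases c with
          | none => rfl
          | some c =>
            by_cases hcg : c ≠ D.g
            · exact absurd hy (D.ne_of_mem_some hcg hc)
            · exact D.ph_g hcg
        rw [hab x hx a h1, hab (rv x) hx b h2]
    have h := K.dconn (f.map Subtype.val) (f'.map Subtype.val)
    have h' : Relation.ReflTransGen (fun a b => ∃ d, d ∈ D.nbd a ∧ rv d ∈ D.nbd b)
        (D.ph (f.map Subtype.val)) (D.ph (f'.map Subtype.val)) :=
      Relation.ReflTransGen.trans_induction_on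
        (motive := fun {a b} _ => Relation.ReflTransGen
          (fun a b => ∃ d, d ∈ D.nbd a ∧ rv d ∈ D.nbd b) (D.ph a) (D.ph b)) h
        (fun _ => Relation.ReflTransGen.refl) (fun h => hall _ _ h) (fun _ _ h1 h2 => h1.trans h2)
    rw [ph_val, ph_val] at h'
    exact h'
  euler := by
    have h := K.euler
    have h1 : Fintype.card {e : K.E // e ≠ D.d.1} = Fintype.card K.E - 1 := by
      simp
    have h2 : Fintype.card {f : K.F // f ≠ D.g} = Fintype.card K.F - 1 := by
      simp
    have h3 : 0 < Fintype.card K.E := Fintype.card_pos_iff.2 ⟨D.d.1⟩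
    have h4 : 0 < Fintype.card K.F := Fintype.card_pos_iff.2 ⟨D.g⟩
    rw [h1, h2]
    omega

end DelData

/-- embedding of complexes (on edges and faces) -/
structure Em (K' K : PC A) where
  v : K'.V → K.V
  e : K'.E → K.E
  f : K'.F → K.F
  einj : Function.Injective e
  finj : Function.Injective f
  org : ∀ x, v (K'.org x) = K.org (e x.1, x.2)
  lab : ∀ x, K'.lab x = K.lab (e x)
  bd : ∀ g, (K'.bd (some g)).map (fun x => (e x.1, x.2)) = K.bd (some (f g))

/-- identity -/
def Em.refl (K : PC A) : Em K K where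
  v := id
  e := id
  f := id
  einj := Function.injective_id
  finj := Function.injective_id
  org := fun _ => rfl
  lab := fun _ => rfl
  bd := fun g => by
    have : (fun x : K.E × Bool => (id x.1, x.2)) = id := rfl
    rw [this, List.map_id]
    rfl

/-- composition -/
def Em.comp {K'' K' K : PC A} (j : Em K'' K') (i : Em K' K) : Em K'' K where
  v := i.v ∘ j.v
  e := i.e ∘ j.e
  f := i.f ∘ j.f
  einj := i.einj.comp j.einj
  finj := i.finj.comp j.finj
  org := fun x => by
    simp only [Function.comp_apply]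
    rw [j.org, i.org]
  lab := fun x => by
    simp only [Function.comp_apply]
    rw [j.lab, i.lab]
  bd := fun g => by
    have h1 := j.bd g
    have h2 := i.bd (j.f g)
    rw [← h1, List.map_map] at h2
    exact h2

/-- `K'` is the restriction of `K` to the faces in `C` -/
structure IsRes {K' K : PC A} (i : Em K' K) (C : Finset K.F) : Prop where
  rng : ∀ g, g ∈ C ↔ ∃ g', i.f g' = g
  bdr : ∀ x, x ∈ K'.bdry univ ↔ i.e x ∈ K.bdry C
  sur : ∀ y ∈ K.bdry C, ∃ x, i.e x = y

theorem mem_bdry {K : PC A} {C : Finset K.F} {e : K.E} : e ∈ K.bdry C ↔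
    ¬ ((∃ f ∈ C, (e, true) ∈ K.bd (some f)) ↔ (∃ f ∈ C, (e, false) ∈ K.bd (some f))) := by
  unfold PC.bdry
  simp only [mem_filter, mem_univ, true_and]

namespace DelData

variable {K : PC A} (D : DelData K)

/-- the embedding of the complex with the edge removed -/
def em : Em D.del K where
  v := fun x => x
  e := fun x => x.1
  f := fun x => x.1
  einj := Subtype.val_injective
  finj := Subtype.val_injective
  org := fun _ => rfl
  lab := fun _ => rfl
  bd := fun g => D.nbd_some g

open Classical in
/-- faces of the new complex -/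
noncomputable def res (C : Finset K.F) : Finset D.del.F := univ.filter (fun f => D.em.f f ∈ C)

theorem mem_res {C : Finset K.F} {f : D.del.F} : f ∈ D.res C ↔ D.em.f f ∈ C := by
  simp [res]

theorem mem_del {x : {e : K.E // e ≠ D.d.1} × Bool} {f : {f : K.F // f ≠ D.g}} :
    x ∈ D.del.bd (some f) ↔ emb x ∈ K.bd (some f.1) := by
  constructor
  · intro h
    rw [← D.nbd_some f]
    exact List.mem_map_of_mem h
  · intro h
    have := D.mem_ph h
    rw [D.ph_some f.2] at this
    exact this

theorem mem_bdry_res {C : Finset K.F} (hg : D.g ∉ C) (x : D.del.E) :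
    x ∈ D.del.bdry (D.res C) ↔ D.em.e x ∈ K.bdry C := by
  have h : ∀ b : Bool, (∃ f ∈ D.res C, ((x, b) : D.del.E × Bool) ∈ D.del.bd (some f)) ↔
      (∃ f ∈ C, (D.em.e x, b) ∈ K.bd (some f)) := by
    intro b
    constructor
    · rintro ⟨f, hf, h⟩
      exact ⟨D.em.f f, D.mem_res.1 hf, D.mem_del.1 h⟩
    · rintro ⟨f, hf, h⟩
      have hfg : f ≠ D.g := fun e => hg (e ▸ hf)
      exact ⟨⟨f, hfg⟩, D.mem_res.2 hf, D.mem_del.2 h⟩
  rw [mem_bdry, mem_bdry, h true, h false]

theorem d_not_bdry {C : Finset K.F} (hg : D.g ∉ C) : D.d.1 ∉ K.bdry C := by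
  have key : ∀ b : Bool, ¬ ∃ f ∈ C, (D.d.1, b) ∈ K.bd (some f) := by
    rintro b ⟨f, hf, h⟩
    exact D.ne_of_mem_some (fun e => hg (e ▸ hf)) h rfl
  rw [mem_bdry]
  intro h
  exact h ⟨fun h => absurd h (key true), fun h => absurd h (key false)⟩

theorem bond_res {C : Finset K.F} (hC : K.Bond C) (hg : D.g ∉ C) : D.del.Bond (D.res C) := by
  obtain ⟨h1, h2, h3⟩ := hC
  have hne : ∀ f ∈ C, f ≠ D.g := fun f hf e => hg (e ▸ hf)
  refine ⟨?_, ?_, ?_⟩
  · obtain ⟨f, hf⟩ := h1
    exact ⟨⟨f, hne f hf⟩, D.mem_res.2 hf⟩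
  · intro f hf g hg'
    have hf' := D.mem_res.1 hf
    have hg'' := D.mem_res.1 hg'
    have h := h2 _ hf' _ hg''
    have key : ∀ (a b : K.F) (ha : a ∈ C), Relation.ReflTransGen
        (fun a b => b ∈ C ∧ ∃ d, d ∈ K.bd (some a) ∧ rv d ∈ K.bd (some b)) a b →
        ∃ hb : b ∈ C, Relation.ReflTransGen
        (fun a b => b ∈ D.res C ∧ ∃ d, d ∈ D.del.bd (some a) ∧ rv d ∈ D.del.bd (some b))
          (⟨a, hne a ha⟩ : {f : K.F // f ≠ D.g}) (⟨b, hne b hb⟩ : {f : K.F // f ≠ D.g}) := by
      intro a b ha hab
      induction hab with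
      | refl => exact ⟨ha, Relation.ReflTransGen.refl⟩
      | @tail b c _ hbc ih =>
        obtain ⟨hb, ih⟩ := ih
        obtain ⟨hc, x, hx1, hx2⟩ := hbc
        refine ⟨hc, ih.tail ⟨D.mem_res.2 hc, (⟨x.1, D.ne_of_mem_some (hne b hb) hx1⟩, x.2), ?_, ?_⟩⟩
        · exact D.mem_del.2 hx1
        · exact D.mem_del.2 hx2
    obtain ⟨_, h⟩ := key _ _ hf' h
    exact h
  · intro f g hf hg'
    have hcon : ∀ a : Option K.F, (∀ x ∈ C, a ≠ some x) → ∀ x ∈ D.res C, D.ph a ≠ some x := by
      intro a ha x hx e
      cases a with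
      | none => exact absurd e (by rw [ph_none]; simp)
      | some a =>
        by_cases hag : a ≠ D.g
        · rw [D.ph_some hag] at e
          have := Option.some.inj e
          rw [← this] at hx
          exact ha a (D.mem_res.1 hx) rfl
        · rw [D.ph_g hag] at e
          simp at e
    have hall : ∀ a b : Option K.F, (∀ x ∈ C, b ≠ some x) ∧ (∃ d, d ∈ K.bd a ∧ rv d ∈ K.bd b) →
        Relation.ReflTransGen (fun a b => (∀ x ∈ D.res C, b ≠ some x) ∧
          ∃ d, d ∈ D.del.bd a ∧ rv d ∈ D.del.bd b) (D.ph a) (D.ph b) := by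
      rintro a b ⟨hb, x, h1, h2⟩
      by_cases hx : x.1 ≠ D.d.1
      · refine Relation.ReflTransGen.single ⟨hcon b hb, (⟨x.1, hx⟩, x.2), ?_, ?_⟩
        · exact D.mem_ph (x := (⟨x.1, hx⟩, x.2)) h1
        · exact D.mem_ph (x := rv (⟨x.1, hx⟩, x.2)) h2
      · push Not at hx
        have hab : ∀ y : K.E × Bool, y.1 = D.d.1 → ∀ c, y ∈ K.bd c → D.ph c = none := by
          intro y hy c hc
          cases c with
          | none => rfl
          | some c =>
            by_cases hcg : c ≠ D.g
            · exact absurd hy (D.ne_of_mem_some hcg hc)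
            · exact D.ph_g hcg
        rw [hab x hx a h1, hab (rv x) hx b h2]
        exact Relation.ReflTransGen.refl
    have hlift : ∀ a : Option {f : K.F // f ≠ D.g}, (∀ x ∈ D.res C, a ≠ some x) →
        ∀ x ∈ C, a.map Subtype.val ≠ some x := by
      intro a ha x hx e
      cases a with
      | none => simp at e
      | some a =>
        simp only [Option.map_some, Option.some.injEq] at e
        exact ha a (D.mem_res.2 (by rw [← e] at hx; exact hx)) rfl
    have h := h3 (f.map Subtype.val) (g.map Subtype.val) (hlift f hf) (hlift g hg')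
    have h' : Relation.ReflTransGen (fun a b => (∀ x ∈ D.res C, b ≠ some x) ∧
          ∃ d, d ∈ D.del.bd a ∧ rv d ∈ D.del.bd b)
        (D.ph (f.map Subtype.val)) (D.ph (g.map Subtype.val)) :=
      Relation.ReflTransGen.trans_induction_on
        (motive := fun {a b} _ => Relation.ReflTransGen
          (fun a b => (∀ x ∈ D.res C, b ≠ some x) ∧
          ∃ d, d ∈ D.del.bd a ∧ rv d ∈ D.del.bd b) (D.ph a) (D.ph b)) h
        (fun _ => Relation.ReflTransGen.refl) (fun h => hall _ _ h) (fun _ _ h1 h2 => h1.trans h2)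
    have e1 : D.ph (f.map Subtype.val) = f := D.ph_val f
    have e2 : D.ph (g.map Subtype.val) = g := D.ph_val g
    exact e1 ▸ e2 ▸ h'

end DelData

theorem exists_res_aux : ∀ (n : ℕ) (K : PC A) (C : Finset K.F), K.Bond C →
    (univ \ C).card ≤ n → ∃ (K' : PC A) (i : Em K' K), IsRes i C := by
  intro n
  induction n with
  | zero =>
    intro K C hC hn
    have hC' : C = univ := by
      have : univ \ C = ∅ := Finset.card_eq_zero.1 (Nat.le_zero.1 hn)
      rw [Finset.sdiff_eq_empty_iff_subset] at this
      exact Finset.univ_subset_iff.1 this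
    subst hC'
    exact ⟨K, Em.refl K, fun g => ⟨fun _ => ⟨g, rfl⟩, fun _ => mem_univ _⟩, fun _ => Iff.rfl,
      fun y _ => ⟨y, rfl⟩⟩
  | succ n ih =>
    intro K C hC hn
    by_cases hu : C = univ
    · subst hu
      exact ⟨K, Em.refl K, fun g => ⟨fun _ => ⟨g, rfl⟩, fun _ => mem_univ _⟩, fun _ => Iff.rfl,
        fun y _ => ⟨y, rfl⟩⟩
    · obtain ⟨g0, hg0⟩ : ∃ g, g ∉ C := by
        by_contra h
        push Not at h
        exact hu (Finset.eq_univ_iff_forall.2 h)
      have h3 := hC.2.2 none (some g0) (by simp) (by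
        intro x hx e
        exact hg0 (by rw [Option.some.inj e]; exact hx))
      -- the first step from `none`
      have key : ∀ b : Option K.F, Relation.ReflTransGen (fun a b => (∀ x ∈ C, b ≠ some x) ∧
          ∃ d, d ∈ K.bd a ∧ rv d ∈ K.bd b) none b → b ≠ none →
          ∃ g, g ∉ C ∧ ∃ d, d ∈ K.bd none ∧ rv d ∈ K.bd (some g) := by
        intro b hb
        induction hb with
        | refl => exact fun h => absurd rfl h
        | @tail b c _ hbc ih =>
          intro hc
          by_cases hbn : b = none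
          · obtain ⟨h1, h2⟩ := hbc
            obtain ⟨c', rfl⟩ := Option.ne_none_iff_exists'.1 hc
            subst hbn
            exact ⟨c', fun h => h1 c' h rfl, h2⟩
          · exact ih hbn
      obtain ⟨g, hg, x, hx1, hx2⟩ := key _ h3 (by simp)
      obtain ⟨D, hDg, hDd⟩ := exists_delData K (d := rv x) hx2 (by rw [rv_rv]; exact hx1)
      subst hDg
      have hB := D.bond_res hC hg
      have hcard : (univ \ D.res C).card ≤ n := by
        have h1 : (univ \ D.res C).map ⟨D.em.f, D.em.finj⟩ ⊆ (univ \ C).erase D.g := by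
          intro y hy
          obtain ⟨z, hz, rfl⟩ := Finset.mem_map.1 hy
          rw [Finset.mem_erase]
          refine ⟨z.2, ?_⟩
          rw [Finset.mem_sdiff] at hz ⊢
          exact ⟨mem_univ _, fun h => hz.2 (D.mem_res.2 h)⟩
        have h2 := Finset.card_le_card h1
        rw [Finset.card_map, Finset.card_erase_of_mem (by simp [hg])] at h2
        omega
      obtain ⟨K', i, hi⟩ := ih D.del (D.res C) hB hcard
      refine ⟨K', i.comp D.em, ?_, ?_, ?_⟩
      · intro f
        constructor
        · intro hf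
          obtain ⟨f', hf'⟩ := (hi.rng ⟨f, fun e => hg (e ▸ hf)⟩).1 (D.mem_res.2 hf)
          refine ⟨f', ?_⟩
          show D.em.f (i.f f') = f
          rw [hf']
          rfl
        · rintro ⟨f', rfl⟩
          exact D.mem_res.1 ((hi.rng _).2 ⟨f', rfl⟩)
      · intro x
        rw [hi.bdr x, D.mem_bdry_res hg]
        rfl
      · intro y hy
        have hyd : y ≠ D.d.1 := fun e => D.d_not_bdry hg (e ▸ hy)
        obtain ⟨x, hx⟩ := hi.sur ⟨y, hyd⟩ ((D.mem_bdry_res hg _).2 hy)
        refine ⟨x, ?_⟩
        show D.em.e (i.e x) = y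
        rw [hx]
        rfl

/-- restriction of a complex to a bond -/
theorem exists_res (K : PC A) (C : Finset K.F) (hC : K.Bond C) :
    ∃ (K' : PC A) (i : Em K' K), IsRes i C :=
  exists_res_aux _ K C hC le_rfl

end Vale.Agent.P201.S.Dl
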