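import Vale.Agent.P201.S.PC

/-! P201, F0: algebra of `Expr`, `MinA`, `NoRed`, weights. -/

namespace Vale.Agent.P201.S

open Finset

namespace F0

variable {S : Sys} {σ : Equiv.Perm S.C}

/-! ### words -/

theorem val_nil {A : Type} : val ([] : List (A × Bool)) = 1 := rfl

theorem val_append {A : Type} (l m : List (A × Bool)) : val (l ++ m) = val l * val m :=
  FreeGroup.mul_mk.symm

theorem val_winv {A : Type} (l : List (A × Bool)) : val (winv l) = (val l)⁻¹ := by
  rw [val, val, FreeGroup.inv_mk]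
  rfl

theorem val_toWord {A : Type} [DecidableEq A] (u : FreeGroup A) : val u.toWord = u :=
  FreeGroup.mk_toWord

theorem winv_append {A : Type} (l m : List (A × Bool)) : winv (l ++ m) = winv m ++ winv l := by
  simp [winv]

theorem winv_winv {A : Type} (l : List (A × Bool)) : winv (winv l) = l := by
  simp [winv, Function.comp_def]

theorem mt_mt (q : Port S) : mt σ (mt σ q) = q := by
  obtain ⟨c, b⟩ := q
  cases b <;> simp [mt]

theorem val_relw (q : Port S) :
    val (relw σ q) = val (half q) * (val (half (mt σ q)))⁻¹ := by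
  rw [relw, val_append, val_winv]

theorem val_relw_mt (q : Port S) : val (relw σ (mt σ q)) = (val (relw σ q))⁻¹ := by
  rw [val_relw, val_relw, mt_mt, mul_inv_rev, inv_inv]

theorem relw_mt (q : Port S) : relw σ (mt σ q) = winv (relw σ q) := by
  rw [relw, relw, winv_append, winv_winv, mt_mt]

theorem mk_relw (q : Port S) : PresentedGroup.mk (rels σ) (val (relw σ q)) = 1 :=
  PresentedGroup.one_of_mem (rels := rels σ) ⟨q, rfl⟩

theorem pch_mt (g : Gp σ) (q : Port S) : pch σ g (mt σ q) = - pch σ g q := by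
  obtain ⟨c, b⟩ := q
  cases b <;> simp [mt, pch]

/-! ### weights -/

theorem wtw_nil (Y : ℕ) : wtw Y ([] : List (Let S × Bool)) = 0 := rfl

theorem wtw_cons (Y : ℕ) (a : Let S × Bool) (l : List (Let S × Bool)) :
    wtw Y (a :: l) = wtl Y a.1 + wtw Y l := by
  simp [wtw]

theorem wtw_append (Y : ℕ) (l m : List (Let S × Bool)) :
    wtw Y (l ++ m) = wtw Y l + wtw Y m := by
  simp [wtw]

theorem wtw_winv (Y : ℕ) (l : List (Let S × Bool)) : wtw Y (winv l) = wtw Y l := by
  simp [wtw, winv, Function.comp_def, List.sum_reverse]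

theorem wtw_sublist (Y : ℕ) {l m : List (Let S × Bool)} (h : l.Sublist m) :
    wtw Y l ≤ wtw Y m :=
  List.Sublist.sum_le_sum (h.map _) (fun _ _ => Nat.zero_le _)

theorem wtw_red (Y : ℕ) {l m : List (Let S × Bool)} (h : FreeGroup.Red l m) :
    wtw Y m ≤ wtw Y l :=
  wtw_sublist Y h.sublist

/-- the reduced word has the smallest weight -/
theorem wtw_toWord_le (Y : ℕ) {u : FreeGroup (Let S)} {l : List (Let S × Bool)}
    (h : val l = u) : wtw Y u.toWord ≤ wtw Y l := by
  subst h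
  have h1 : (val l).toWord = FreeGroup.reduce l := by
    rw [val, FreeGroup.toWord_mk]
  rw [h1]
  exact wtw_red Y FreeGroup.reduce.red

theorem tw_mem {h : ℤ} {a : Let S × Bool} (ha : a ∈ tw S h) : a.1 = Let.t := by
  unfold tw at ha
  rw [List.eq_of_mem_replicate ha]

theorem wtw_tw (Y : ℕ) (h : ℤ) : wtw Y (tw S h) = 0 := by
  unfold wtw
  rw [List.sum_eq_zero_iff]
  intro x hx
  obtain ⟨a, ha, rfl⟩ := List.mem_map.1 hx
  rw [tw_mem ha, wtl]

/-! ### Expr -/

theorem mk_eq {k : ℕ} {u : FreeGroup (Let S)} {z : Chn σ} (h : Expr σ k u z) :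
    PresentedGroup.mk (rels σ) u = 1 := by
  induction h with
  | nil => exact map_one _
  | cons k u z v q _ ih =>
    rw [map_mul, map_mul, map_mul, mk_relw, mul_one, map_inv, mul_inv_cancel, one_mul, ih]

theorem congr {k k' : ℕ} {u u' : FreeGroup (Let S)} {z z' : Chn σ} (h : Expr σ k u z)
    (hk : k = k') (hu : u = u') (hz : z = z') : Expr σ k' u' z' := by
  subst hk hu hz
  exact h

theorem single (v : FreeGroup (Let S)) (q : Port S) :
    Expr σ 1 (v * val (relw σ q) * v⁻¹) (pch σ (PresentedGroup.mk (rels σ) v) q) :=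
  congr (Expr.cons 0 1 0 v q Expr.nil) rfl (mul_one _) (add_zero _)

theorem mul {k l : ℕ} {u w : FreeGroup (Let S)} {y z : Chn σ} (h : Expr σ k u y)
    (h' : Expr σ l w z) : Expr σ (k + l) (u * w) (y + z) := by
  induction h with
  | nil => exact congr h' (by omega) (by rw [one_mul]) (by rw [zero_add])
  | cons k u y v q _ ih =>
    exact congr (Expr.cons (k + l) (u * w) (y + z) v q ih) (by omega) (by group)
      (by rw [add_assoc])

theorem inv {k : ℕ} {u : FreeGroup (Let S)} {z : Chn σ} (h : Expr σ k u z) :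
    Expr σ k u⁻¹ (-z) := by
  induction h with
  | nil => exact congr Expr.nil rfl (by rw [inv_one]) (by rw [neg_zero])
  | cons k u y v q _ ih =>
    refine congr (mul ih (single v (mt σ q))) rfl ?_ ?_
    · rw [val_relw_mt]
      group
    · rw [pch_mt, neg_add]
      abel

/-- left translation of chains -/
noncomputable def act (g : Gp σ) : Chn σ →+ Chn σ :=
  Finsupp.mapDomain.addMonoidHom (fun a => (g * a.1, a.2))

theorem act_pch (g a : Gp σ) (q : Port S) : act g (pch σ a q) = pch σ (g * a) q := by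
  rcases q with ⟨c, b⟩
  cases b
  · exact Finsupp.mapDomain_single
  · exact Finsupp.mapDomain_single

theorem act_one (z : Chn σ) : act (1 : Gp σ) z = z := by
  have h : (fun a : Gp σ × S.C => ((1 : Gp σ) * a.1, a.2)) = id := by
    funext a
    simp
  change Finsupp.mapDomain (fun a : Gp σ × S.C => ((1 : Gp σ) * a.1, a.2)) z = z
  rw [h, Finsupp.mapDomain_id]

theorem act_act (g h : Gp σ) (z : Chn σ) : act g (act h z) = act (g * h) z := by
  change Finsupp.mapDomain _ (Finsupp.mapDomain _ z) = Finsupp.mapDomain _ z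
  rw [← Finsupp.mapDomain_comp]
  congr 1
  funext a
  simp [mul_assoc]

theorem act_eq_zero (g : Gp σ) {z : Chn σ} (h : act g z = 0) : z = 0 := by
  have h1 := congrArg (act g⁻¹) h
  rwa [act_act, inv_mul_cancel, act_one, map_zero] at h1

theorem conj {k : ℕ} {u : FreeGroup (Let S)} {z : Chn σ} (h : Expr σ k u z)
    (w : FreeGroup (Let S)) :
    Expr σ k (w * u * w⁻¹) (act (PresentedGroup.mk (rels σ) w) z) := by
  induction h with
  | nil => exact congr Expr.nil rfl (by group) (by rw [map_zero])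
  | cons k u y v q _ ih =>
    refine congr (mul (single (w * v) q) ih) (by omega) ?_ ?_
    · group
    · rw [map_add, act_pch, map_mul]

/-- conjugation by an element that is trivial in the group does not change the chain -/
theorem conj_of_mk_one {k : ℕ} {u : FreeGroup (Let S)} {z : Chn σ} (h : Expr σ k u z)
    (w : FreeGroup (Let S)) (hw : PresentedGroup.mk (rels σ) w = 1) :
    Expr σ k (w * u * w⁻¹) z :=
  congr (conj h w) rfl rfl (by rw [hw, act_one])

theorem expr_zero {u : FreeGroup (Let S)} {z : Chn σ} (h : Expr σ 0 u z) : u = 1 ∧ z = 0 := by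
  cases h
  exact ⟨rfl, rfl⟩

/-- every element of the kernel is expressed by relators -/
theorem of_ker {u : FreeGroup (Let S)} (hu : PresentedGroup.mk (rels σ) u = 1) :
    ∃ k z, Expr σ k u z := by
  let N : Subgroup (FreeGroup (Let S)) :=
    { carrier := {u | ∃ k z, Expr σ k u z}
      mul_mem' := fun ⟨k, z, h⟩ ⟨k', z', h'⟩ => ⟨k + k', z + z', mul h h'⟩
      one_mem' := ⟨0, 0, Expr.nil⟩
      inv_mem' := fun ⟨k, z, h⟩ => ⟨k, -z, inv h⟩ }
  have : N.Normal := ⟨fun u ⟨k, z, h⟩ w => ⟨k, _, conj h w⟩⟩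
  have hle : Subgroup.normalClosure (rels σ) ≤ N := by
    refine Subgroup.normalClosure_le_normal ?_
    rintro _ ⟨q, rfl⟩
    have h := single (σ := σ) 1 q
    rw [one_mul, inv_one, mul_one] at h
    exact ⟨1, _, h⟩
  exact hle (PresentedGroup.mk_eq_one_iff.mp hu)

/-- cyclic permutation of a product -/
theorem rot {k : ℕ} {u w : FreeGroup (Let S)} {z : Chn σ} (h : Expr σ k (u * w) z)
    (hu : PresentedGroup.mk (rels σ) u = 1) : Expr σ k (w * u) z := by
  refine congr (conj_of_mk_one h u⁻¹ (by rw [map_inv, hu, inv_one])) rfl ?_ rfl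
  group

/-! ### MinA -/

theorem exists_minA_of_expr {k : ℕ} {u : FreeGroup (Let S)} {z : Chn σ} (h : Expr σ k u z) :
    ∃ k0, k0 ≤ k ∧ MinA σ u k0 := by
  classical
  have hex : ∃ k, ∃ z, Expr σ k u z := ⟨k, z, h⟩
  exact ⟨Nat.find hex, Nat.find_min' hex ⟨z, h⟩, Nat.find_spec hex,
    fun k' z' h' => Nat.find_min' hex ⟨z', h'⟩⟩

theorem exists_minA {u : FreeGroup (Let S)} (hu : PresentedGroup.mk (rels σ) u = 1) :
    ∃ k, MinA σ u k := by
  obtain ⟨k, z, h⟩ := of_ker hu
  obtain ⟨k0, -, h0⟩ := exists_minA_of_expr h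
  exact ⟨k0, h0⟩

theorem MinA.mk_eq {k : ℕ} {u : FreeGroup (Let S)} (h : MinA σ u k) :
    PresentedGroup.mk (rels σ) u = 1 := by
  obtain ⟨⟨z, hz⟩, -⟩ := h
  exact F0.mk_eq hz

theorem MinA.unique {k k' : ℕ} {u : FreeGroup (Let S)} (h : MinA σ u k) (h' : MinA σ u k') :
    k = k' := by
  obtain ⟨⟨z, hz⟩, h1⟩ := h
  obtain ⟨⟨z', hz'⟩, h1'⟩ := h'
  exact le_antisymm (h1 _ _ hz') (h1' _ _ hz)

theorem MinA.zero {u : FreeGroup (Let S)} (h : MinA σ u 0) : u = 1 := by
  obtain ⟨⟨z, hz⟩, -⟩ := h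
  exact (expr_zero hz).1

theorem minA_one : MinA σ (1 : FreeGroup (Let S)) 0 := ⟨⟨0, Expr.nil⟩, fun _ _ _ => Nat.zero_le _⟩

theorem MinA.conj {k : ℕ} {u : FreeGroup (Let S)} (h : MinA σ u k) (w : FreeGroup (Let S)) :
    MinA σ (w * u * w⁻¹) k := by
  obtain ⟨⟨z, hz⟩, h1⟩ := h
  refine ⟨⟨_, F0.conj hz w⟩, fun k' z' h' => ?_⟩
  have h2 := F0.conj h' w⁻¹
  refine h1 k' _ (congr h2 rfl ?_ rfl)
  group

theorem MinA.inv {k : ℕ} {u : FreeGroup (Let S)} (h : MinA σ u k) : MinA σ u⁻¹ k := by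
  obtain ⟨⟨z, hz⟩, h1⟩ := h
  refine ⟨⟨_, F0.inv hz⟩, fun k' z' h' => ?_⟩
  have h2 := F0.inv h'
  exact h1 k' _ (congr h2 rfl (inv_inv u) rfl)

theorem minA_conj_iff {k : ℕ} {u : FreeGroup (Let S)} (w : FreeGroup (Let S)) :
    MinA σ (w * u * w⁻¹) k ↔ MinA σ u k := by
  refine ⟨fun h => ?_, fun h => MinA.conj h w⟩
  have h1 := MinA.conj h w⁻¹
  have h2 : w⁻¹ * (w * u * w⁻¹) * w⁻¹⁻¹ = u := by group
  rwa [h2] at h1

theorem MinA.mul_le {k l m : ℕ} {u v : FreeGroup (Let S)} (hu : MinA σ u k) (hv : MinA σ v l)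
    (h : MinA σ (u * v) m) : m ≤ k + l := by
  obtain ⟨⟨z, hz⟩, -⟩ := hu
  obtain ⟨⟨z', hz'⟩, -⟩ := hv
  exact h.2 _ _ (mul hz hz')

/-- a minimal expression cannot be reduced -/
theorem MinA.noRed {k : ℕ} {u : FreeGroup (Let S)} (h : MinA σ u k) (z : Chn σ) :
    NoRed σ u k z := by
  intro k1 z1 h1 h2 _ h3
  have := h.2 _ _ h3
  omega

/-! ### shortest identities with non-zero chain -/

/-- an identity with non-zero chain gives a square `q0` and an expression of its relator -/
theorem sphere {N : ℕ} {z : Chn σ} (h : Expr σ N 1 z) (hz : z ≠ 0) :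
    1 ≤ N ∧ ∃ (q0 : Port S) (z' : Chn σ), Expr σ (N - 1) (val (relw σ q0)) z' ∧
      z' - pch σ 1 q0 ≠ 0 := by
  generalize hu : (1 : FreeGroup (Let S)) = u at h
  cases h with
  | nil => exact absurd rfl hz
  | cons k u z v q h =>
    refine ⟨by omega, mt σ q, act (PresentedGroup.mk (rels σ) v⁻¹) z, ?_, ?_⟩
    · refine congr (conj h v⁻¹) rfl ?_ rfl
      rw [val_relw_mt]
      have h1 : u = (v * val (relw σ q) * v⁻¹)⁻¹ := by
        rw [eq_comm, inv_eq_iff_mul_eq_one]
        exact hu.symm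
      rw [h1]
      group
    · intro h1
      apply hz
      rw [pch_mt, sub_neg_eq_add] at h1
      apply act_eq_zero (PresentedGroup.mk (rels σ) v⁻¹)
      rw [map_add, act_pch, ← map_mul, inv_mul_cancel, map_one, add_comm]
      exact h1

/-- if all shorter identities have chain zero, the expression of `sphere` cannot be reduced -/
theorem sphere_noRed {N : ℕ} {q0 : Port S} {z' : Chn σ}
    (hmin : ∀ k z, k < N → Expr σ k 1 z → z = 0) (h1 : 1 ≤ N)
    (hz' : z' - pch σ 1 q0 ≠ 0) : NoRed σ (val (relw σ q0)) (N - 1) z' := by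
  intro k1 z1 hk1 hk2 he1 he2
  have hz1 : z1 = 0 := hmin k1 z1 (by omega) he1
  subst hz1
  rw [sub_zero] at he2
  have h2 := mul he2 (single (σ := σ) 1 (mt σ q0))
  rw [one_mul, inv_one, mul_one, val_relw_mt, mul_inv_cancel, map_one, pch_mt,
    ← sub_eq_add_neg] at h2
  exact hz' (hmin _ _ (by omega) h2)

end F0

end Vale.Agent.P201.S
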