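import Vale.Agent.P201.S.PC

/-!
P201, part F: components of a set of faces and their fillings (bonds).  (helper192)
-/

namespace Vale.Agent.P201.S

open Finset

namespace PC

variable {A : Type} (K : PC A)

theorem exists_face (d : K.E × Bool) : ∃ f, d ∈ K.bd f := by
  by_contra h
  push Not at h
  have := K.once d
  rw [Finset.sum_eq_zero (fun f _ => List.count_eq_zero.mpr (h f))] at this
  exact absurd this (by decide)

theorem fill_face_unique {d : K.E × Bool} {f g : Option K.F} (hf : d ∈ K.bd f) (hg : d ∈ K.bd g) :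
    f = g := by
  by_contra hne
  have h1 : 1 ≤ (K.bd f).count d := List.count_pos_iff.mpr hf
  have h2 : 1 ≤ (K.bd g).count d := List.count_pos_iff.mpr hg
  have h3 : (K.bd f).count d + (K.bd g).count d ≤ ∑ f, (K.bd f).count d := by
    rw [← Finset.sum_pair (f := fun x => (K.bd x).count d) hne]
    exact Finset.sum_le_sum_of_subset (Finset.subset_univ _)
  rw [K.once d] at h3
  omega

theorem fc_mem (d : K.E × Bool) : d ∈ K.bd (K.fc d) :=
  Classical.epsilon_spec (K.exists_face d)

theorem fc_eq {d : K.E × Bool} {f : Option K.F} (hf : d ∈ K.bd f) : K.fc d = f :=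
  K.fill_face_unique (K.fc_mem d) hf

theorem mem_bd_iff {d : K.E × Bool} {f : Option K.F} : d ∈ K.bd f ↔ K.fc d = f :=
  ⟨K.fc_eq, fun h => h ▸ K.fc_mem d⟩

theorem mem_bdry {C : Finset K.F} {e : K.E} : e ∈ K.bdry C ↔
    ¬ ((∃ f ∈ C, K.fc (e, true) = some f) ↔ (∃ f ∈ C, K.fc (e, false) = some f)) := by
  unfold bdry
  simp only [mem_filter, mem_univ, true_and, mem_bd_iff]

/-- dual adjacency -/
def DAdj (f g : Option K.F) : Prop := ∃ d, d ∈ K.bd f ∧ rv d ∈ K.bd g

theorem rv_rv {E : Type} (d : E × Bool) : rv (rv d) = d := by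
  simp [rv]

theorem DAdj.symm {K : PC A} {f g : Option K.F} (h : K.DAdj f g) : K.DAdj g f := by
  obtain ⟨d, h1, h2⟩ := h
  exact ⟨rv d, h2, by rw [rv_rv]; exact h1⟩

theorem dAdj_edge (e : K.E) (b : Bool) : K.DAdj (K.fc (e, b)) (K.fc (e, !b)) :=
  ⟨(e, b), K.fc_mem _, K.fc_mem _⟩

open Classical in
/-- component of the face `f` in the set `D` -/
noncomputable def comp (D : Finset K.F) (f : K.F) : Finset K.F :=
  univ.filter (fun g => Relation.ReflTransGen (fun a b => b ∈ D ∧ K.DAdj (some a) (some b)) f g)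

/-- the faces connected with the outer face outside of `C` -/
def Out (C : Finset K.F) (g : Option K.F) : Prop :=
  Relation.ReflTransGen (fun a b => (∀ x ∈ C, b ≠ some x) ∧ K.DAdj a b) none g

open Classical in
/-- filling -/
noncomputable def fill (C : Finset K.F) : Finset K.F := univ.filter (fun g => ¬ K.Out C (some g))

variable {K}

theorem mem_comp {D : Finset K.F} {f g : K.F} : g ∈ K.comp D f ↔
    Relation.ReflTransGen (fun a b => b ∈ D ∧ K.DAdj (some a) (some b)) f g := by
  simp [comp]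

theorem mem_fill {C : Finset K.F} {g : K.F} : g ∈ K.fill C ↔ ¬ K.Out C (some g) := by
  simp [fill]

theorem self_mem_comp (D : Finset K.F) (f : K.F) : f ∈ K.comp D f :=
  mem_comp.mpr Relation.ReflTransGen.refl

theorem comp_subset {D : Finset K.F} {f : K.F} (hf : f ∈ D) : K.comp D f ⊆ D := by
  intro g hg
  rcases Relation.ReflTransGen.cases_tail (mem_comp.mp hg) with h | ⟨c, _, h⟩
  · rw [h]; exact hf
  · exact h.1

theorem reach_symm {D : Finset K.F} {f g : K.F} (hf : f ∈ D)
    (h : Relation.ReflTransGen (fun a b => b ∈ D ∧ K.DAdj (some a) (some b)) f g) :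
    Relation.ReflTransGen (fun a b => b ∈ D ∧ K.DAdj (some a) (some b)) g f := by
  induction h with
  | refl => exact Relation.ReflTransGen.refl
  | @tail b c hab hbc ih =>
    have hb : b ∈ D := by
      rcases Relation.ReflTransGen.cases_tail hab with h | ⟨x, _, h⟩
      · rw [h]; exact hf
      · exact h.1
    exact Relation.ReflTransGen.head ⟨hb, hbc.2.symm⟩ ih

theorem comp_eq {D : Finset K.F} {f g : K.F} (hf : f ∈ D) (hg : g ∈ K.comp D f) :
    K.comp D g = K.comp D f := by
  have h1 := mem_comp.mp hg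
  have h2 := reach_symm hf h1
  ext x
  rw [mem_comp, mem_comp]
  exact ⟨fun h => h1.trans h, fun h => h2.trans h⟩

theorem Out.not_mem {C : Finset K.F} {g : Option K.F} (h : K.Out C g) : ∀ x ∈ C, g ≠ some x := by
  rcases Relation.ReflTransGen.cases_tail h with h | ⟨c, _, h⟩
  · rw [h]; intro x _ hx; cases hx
  · exact h.1

theorem subset_fill (C : Finset K.F) : C ⊆ K.fill C := by
  intro g hg
  rw [mem_fill]
  intro h
  exact h.not_mem g hg rfl

theorem Out.step {C : Finset K.F} {g h : Option K.F} (hg : K.Out C g) (ha : K.DAdj g h)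
    (hh : ∀ x ∈ C, h ≠ some x) : K.Out C h :=
  Relation.ReflTransGen.tail hg ⟨hh, ha⟩

theorem fill_reach {C : Finset K.F} {f : K.F} (hf : f ∈ K.fill C) : ∃ c ∈ C,
    Relation.ReflTransGen (fun a b => b ∈ K.fill C ∧ K.DAdj (some a) (some b)) f c := by
  have key : ∀ x : Option K.F, Relation.ReflTransGen (fun a b => ∃ d, d ∈ K.bd a ∧ rv d ∈ K.bd b) x none →
      ∀ f, x = some f → f ∈ K.fill C → ∃ c ∈ C,
        Relation.ReflTransGen (fun a b => b ∈ K.fill C ∧ K.DAdj (some a) (some b)) f c := by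
    intro x hx
    induction hx using Relation.ReflTransGen.head_induction_on with
    | refl => intro f hf; cases hf
    | @head a b hab hb ih =>
      intro f haf hf
      subst haf
      by_cases hfC : f ∈ C
      · exact ⟨f, hfC, Relation.ReflTransGen.refl⟩
      · have hb' : ¬ K.Out C b := by
          intro hob
          apply mem_fill.mp hf
          apply hob.step (DAdj.symm hab)
          intro x hx h
          apply hfC
          cases h
          exact hx
        rcases b with _ | g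
        · exact absurd Relation.ReflTransGen.refl hb'
        · have hg : g ∈ K.fill C := mem_fill.mpr hb'
          obtain ⟨c, hc, hgc⟩ := ih g rfl hg
          exact ⟨c, hc, Relation.ReflTransGen.head ⟨hg, hab⟩ hgc⟩
  exact key (some f) (K.dconn _ _) f rfl hf

theorem bond_fill {D : Finset K.F} {f : K.F} (hf : f ∈ D) : K.Bond (K.fill (K.comp D f)) := by
  set C := K.comp D f with hC
  have hfC : f ∈ C := self_mem_comp D f
  refine ⟨⟨f, subset_fill C hfC⟩, ?_, ?_⟩
  · intro a ha b hb
    obtain ⟨c, hc, hac⟩ := fill_reach ha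
    obtain ⟨c', hc', hbc⟩ := fill_reach hb
    have h1 := reach_symm hb hbc
    have hcD : c ∈ D := comp_subset hf hc
    have h2 : Relation.ReflTransGen (fun a b => b ∈ D ∧ K.DAdj (some a) (some b)) c c' :=
      (reach_symm hf (mem_comp.mp hc)).trans (mem_comp.mp hc')
    have h3 : Relation.ReflTransGen (fun a b => b ∈ K.fill C ∧ K.DAdj (some a) (some b)) c c' := by
      clear h1 hbc hc'
      induction h2 with
      | refl => exact Relation.ReflTransGen.refl
      | @tail x y hcx hxy ih =>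
        refine Relation.ReflTransGen.tail ih ⟨subset_fill C ?_, hxy.2⟩
        exact mem_comp.mpr (((mem_comp.mp hc).trans hcx).tail hxy)
    exact hac.trans (h3.trans h1)
  · have hout : ∀ g : Option K.F, (∀ x ∈ K.fill C, g ≠ some x) → K.Out C g := by
      intro g hg
      rcases g with _ | g
      · exact Relation.ReflTransGen.refl
      · by_contra h
        exact hg g (mem_fill.mpr h) rfl
    have hnot : ∀ g : Option K.F, K.Out C g → ∀ x ∈ K.fill C, g ≠ some x := by
      intro g hg x hx h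
      subst h
      exact mem_fill.mp hx hg
    have hfrom : ∀ g : Option K.F, K.Out C g → Relation.ReflTransGen
        (fun a b => (∀ x ∈ K.fill C, b ≠ some x) ∧ ∃ d, d ∈ K.bd a ∧ rv d ∈ K.bd b) none g := by
      intro g hg
      have : Relation.ReflTransGen
        (fun a b => (∀ x ∈ K.fill C, b ≠ some x) ∧ ∃ d, d ∈ K.bd a ∧ rv d ∈ K.bd b) none g ∧ K.Out C g := by
        induction hg with
        | refl => exact ⟨Relation.ReflTransGen.refl, Relation.ReflTransGen.refl⟩
        | @tail x y hx hxy ih =>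
          have hy : K.Out C y := ih.2.step hxy.2 hxy.1
          exact ⟨ih.1.tail ⟨hnot y hy, hxy.2⟩, hy⟩
      exact this.1
    have hto : ∀ g : Option K.F, K.Out C g → Relation.ReflTransGen
        (fun a b => (∀ x ∈ K.fill C, b ≠ some x) ∧ ∃ d, d ∈ K.bd a ∧ rv d ∈ K.bd b) g none := by
      intro g hg
      have : Relation.ReflTransGen
        (fun a b => (∀ x ∈ K.fill C, b ≠ some x) ∧ ∃ d, d ∈ K.bd a ∧ rv d ∈ K.bd b) g none ∧ K.Out C g := by
        induction hg with
        | refl => exact ⟨Relation.ReflTransGen.refl, Relation.ReflTransGen.refl⟩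
        | @tail x y hx hxy ih =>
          have hy : K.Out C y := ih.2.step hxy.2 hxy.1
          exact ⟨Relation.ReflTransGen.head ⟨hnot x ih.2, DAdj.symm hxy.2⟩ ih.1, hy⟩
      exact this.1
    intro a b ha hb
    exact (hto a (hout a ha)).trans (hfrom b (hout b hb))

/-- a boundary edge of the filling has one side in `C`, the other one outside of the filling -/
theorem bdry_fill {C : Finset K.F} {e : K.E} (he : e ∈ K.bdry (K.fill C)) :
    ∃ b : Bool, (∃ f ∈ C, K.fc (e, b) = some f) ∧ ∀ f ∈ K.fill C, K.fc (e, !b) ≠ some f := by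
  have key : ∀ b : Bool, (∃ f ∈ K.fill C, K.fc (e, b) = some f) →
      (¬ ∃ f ∈ K.fill C, K.fc (e, !b) = some f) →
      (∃ f ∈ C, K.fc (e, b) = some f) ∧ ∀ f ∈ K.fill C, K.fc (e, !b) ≠ some f := by
    intro b ⟨f, hf, hfe⟩ h2
    push Not at h2
    refine ⟨⟨f, ?_, hfe⟩, h2⟩
    by_contra hfC
    have ho : K.Out C (K.fc (e, !b)) := by
      rcases hx : K.fc (e, !b) with _ | g
      · exact Relation.ReflTransGen.refl
      · by_contra h
        exact h2 g (mem_fill.mpr h) hx
    apply mem_fill.mp hf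
    apply ho.step
    · rw [← hfe]; exact (K.dAdj_edge e b).symm
    · intro x hx h
      cases h
      exact hfC hx
  rw [mem_bdry] at he
  by_cases h1 : ∃ f ∈ K.fill C, K.fc (e, true) = some f
  · by_cases h2 : ∃ f ∈ K.fill C, K.fc (e, false) = some f
    · exact absurd (iff_of_true h1 h2) he
    · exact ⟨true, key true h1 h2⟩
  · by_cases h2 : ∃ f ∈ K.fill C, K.fc (e, false) = some f
    · exact ⟨false, key false h2 h1⟩
    · exact absurd (iff_of_false h1 h2) he

/-- a boundary edge of the filled component of `f` has one side in the component, the other side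
not in `D` -/
theorem bdry_fill_comp {D : Finset K.F} {f : K.F} (hf : f ∈ D) {e : K.E}
    (he : e ∈ K.bdry (K.fill (K.comp D f))) :
    ∃ b : Bool, (∃ g ∈ K.comp D f, K.fc (e, b) = some g) ∧ ∀ g ∈ D, K.fc (e, !b) ≠ some g := by
  obtain ⟨b, ⟨g, hg, hge⟩, h2⟩ := bdry_fill he
  refine ⟨b, ⟨g, hg, hge⟩, ?_⟩
  intro g' hg' h
  apply h2 g' _ h
  apply subset_fill
  refine mem_comp.mpr ((mem_comp.mp hg).tail ⟨hg', ?_⟩)
  rw [← hge, ← h]
  exact K.dAdj_edge e b

theorem bdry_fill_subset {D : Finset K.F} {f : K.F} (hf : f ∈ D) :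
    K.bdry (K.fill (K.comp D f)) ⊆ K.bdry D := by
  intro e he
  obtain ⟨b, ⟨g, hg, hge⟩, h2⟩ := bdry_fill_comp hf he
  rw [mem_bdry]
  have hgD := comp_subset hf hg
  intro h
  cases b
  · obtain ⟨x, hx, hxe⟩ := h.mpr ⟨g, hgD, hge⟩
    exact h2 x hx hxe
  · obtain ⟨x, hx, hxe⟩ := h.mp ⟨g, hgD, hge⟩
    exact h2 x hx hxe

theorem bdry_fill_disjoint {D : Finset K.F} {f g : K.F} (hf : f ∈ D) (hg : g ∈ D)
    (hne : K.comp D f ≠ K.comp D g) :
    Disjoint (K.bdry (K.fill (K.comp D f))) (K.bdry (K.fill (K.comp D g))) := by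
  rw [Finset.disjoint_left]
  intro e he he'
  obtain ⟨b, ⟨x, hx, hxe⟩, h2⟩ := bdry_fill_comp hf he
  obtain ⟨b', ⟨x', hx', hxe'⟩, h2'⟩ := bdry_fill_comp hg he'
  by_cases hb : b = b'
  · subst hb
    rw [hxe] at hxe'
    cases hxe'
    exact hne ((comp_eq hf hx).symm.trans (comp_eq hg hx'))
  · have : b' = !b := by cases b <;> cases b' <;> simp_all
    subst this
    exact h2 x' (comp_subset hg hx') hxe'

theorem not_mem_fill {D : Finset K.F} {f g : K.F} (hf : f ∈ D) (hg : g ∉ D)
    (ha : K.DAdj none (some g)) : g ∉ K.fill (K.comp D f) := by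
  rw [mem_fill, not_not]
  refine Relation.ReflTransGen.tail Relation.ReflTransGen.refl ⟨?_, ha⟩
  intro x hx h
  cases h
  exact hg (comp_subset hf hx)

variable (K)

/-- Isoperimetric inequality for all sets of faces from the one for bonds. -/
theorem card_le_of_bonds (D : Finset K.F) (w : K.E → ℝ) (hw : ∀ e, 0 ≤ w e) (e0 : ℝ) (he0 : 0 ≤ e0)
    (h : ∀ C, K.Bond C → K.bdry C ⊆ K.bdry D →
      (∀ g, g ∉ D → K.DAdj none (some g) → g ∉ C) →
      e0 * C.card ≤ ∑ e ∈ K.bdry C, w e) :
    e0 * D.card ≤ ∑ e ∈ K.bdry D, w e := by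
  classical
  set I : Finset (Finset K.F) := D.image (K.comp D) with hI
  have h1 : D ⊆ I.biUnion K.fill := by
    intro f hf
    rw [Finset.mem_biUnion]
    exact ⟨K.comp D f, Finset.mem_image_of_mem _ hf, subset_fill _ (self_mem_comp D f)⟩
  have h2 : (D.card : ℝ) ≤ ∑ C ∈ I, ((K.fill C).card : ℝ) := by
    have := (Finset.card_le_card h1).trans (Finset.card_biUnion_le)
    exact_mod_cast this
  have h3 : ∀ C ∈ I, e0 * ((K.fill C).card : ℝ) ≤ ∑ e ∈ K.bdry (K.fill C), w e := by
    intro C hC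
    obtain ⟨f, hf, rfl⟩ := Finset.mem_image.mp hC
    exact h _ (bond_fill hf) (bdry_fill_subset hf) (fun g hg ha => not_mem_fill hf hg ha)
  have h4 : ∑ C ∈ I, ∑ e ∈ K.bdry (K.fill C), w e = ∑ e ∈ I.biUnion (fun C => K.bdry (K.fill C)), w e := by
    rw [Finset.sum_biUnion]
    intro C hC C' hC' hne
    obtain ⟨f, hf, rfl⟩ := Finset.mem_image.mp (Finset.mem_coe.mp hC)
    obtain ⟨f', hf', rfl⟩ := Finset.mem_image.mp (Finset.mem_coe.mp hC')
    exact bdry_fill_disjoint hf hf' hne
  have h5 : I.biUnion (fun C => K.bdry (K.fill C)) ⊆ K.bdry D := by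
    intro e he
    obtain ⟨C, hC, he'⟩ := Finset.mem_biUnion.mp he
    obtain ⟨f, hf, rfl⟩ := Finset.mem_image.mp hC
    exact bdry_fill_subset hf he'
  calc e0 * (D.card : ℝ) ≤ e0 * ∑ C ∈ I, ((K.fill C).card : ℝ) := by gcongr
    _ = ∑ C ∈ I, e0 * ((K.fill C).card : ℝ) := by rw [Finset.mul_sum]
    _ ≤ ∑ C ∈ I, ∑ e ∈ K.bdry (K.fill C), w e := Finset.sum_le_sum h3
    _ = ∑ e ∈ I.biUnion (fun C => K.bdry (K.fill C)), w e := h4
    _ ≤ ∑ e ∈ K.bdry D, w e := Finset.sum_le_sum_of_subset_of_nonneg h5 (fun e _ _ => hw e)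

end PC

end Vale.Agent.P201.S
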