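import Vale.Agent.P201.S.F.F0
import Vale.Agent.P201.S.F.Fill
import Vale.Agent.P201.S.F.Sphere

/-!
P201, part F3 (helper879).  `minA_sub`, `bond_iso` : isoperimetry of bonds (part (a));
`set_iso` : sets of faces (part (b)); `compl_iso` : sets with dual connected complement, for a
subadditive function.  The last two use only the isoperimetry of bonds as a hypothesis.
-/

namespace Vale.Agent.P201.S

open Finset

section Abs

variable {A : Type} (K : PC A)

/-- (F3 b) sets of faces, linear bound, from the bound for proper bonds -/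
theorem set_iso (w : K.E → ℝ) (hw : ∀ e, 0 ≤ w e) (ψ : ℕ → ℝ) (e0 : ℝ) (he0 : 0 ≤ e0)
    (hlin : ∀ k : ℕ, e0 * k ≤ ψ k)
    (hb : ∀ C, K.Bond C → C ≠ univ → ψ C.card ≤ ∑ e ∈ K.bdry C, w e)
    (D : Finset K.F) (g : K.F) (hg : g ∉ D) (ha : ∃ d, d ∈ K.bd none ∧ rv d ∈ K.bd (some g)) :
    e0 * D.card ≤ ∑ e ∈ K.bdry D, w e := by
  refine K.card_le_of_bonds D w hw e0 he0 ?_
  intro C hC _ hout
  refine (hlin _).trans (hb C hC ?_)
  rintro rfl
  exact hout g hg ha (mem_univ g)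

theorem sub_sum (ψ : ℕ → ℝ) (h0 : ψ 0 ≤ 0) (hsub : ∀ a b, ψ (a + b) ≤ ψ a + ψ b)
    {ι : Type} (s : Finset ι) (f : ι → ℕ) : ψ (∑ i ∈ s, f i) ≤ ∑ i ∈ s, ψ (f i) := by
  classical
  induction s using Finset.induction_on with
  | empty => simpa using h0
  | insert a s ha ih =>
    rw [sum_insert ha, sum_insert ha]
    exact (hsub _ _).trans (by linarith)

/-- sets of faces with dual connected complement, subadditive bound, from the bound for proper
bonds -/
theorem compl_iso (w : K.E → ℝ) (ψ : ℕ → ℝ) (h0 : ψ 0 ≤ 0)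
    (hsub : ∀ a b, ψ (a + b) ≤ ψ a + ψ b)
    (hb : ∀ C, K.Bond C → C ≠ univ → ψ C.card ≤ ∑ e ∈ K.bdry C, w e)
    (U : Finset K.F) (hne : U ≠ univ)
    (hU : ∀ f g : Option K.F, (∀ x ∈ U, f ≠ some x) → (∀ x ∈ U, g ≠ some x) →
      Relation.ReflTransGen
        (fun a b => (∀ x ∈ U, b ≠ some x) ∧ ∃ d, d ∈ K.bd a ∧ rv d ∈ K.bd b) f g) :
    ψ U.card ≤ ∑ e ∈ K.bdry U, w e := by
  obtain ⟨P, h1, h2, -, -, h5, -, h7⟩ := K.decomp_bonds U hU
  rw [← h5, ← h7 w]
  refine (sub_sum ψ h0 hsub P (fun C => C.card)).trans ?_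
  refine Finset.sum_le_sum ?_
  intro C hC
  refine hb C (h1 C hC) ?_
  rintro rfl
  exact hne (Finset.univ_subset_iff.mp (h2 _ hC))

end Abs

variable {S : Sys} {σ : Equiv.Perm S.C}

theorem base_root (K : SqK σ) (P : K.GPot) (r : K.V)
    (hroot : ∀ d ∈ (K.bd none).head?, K.org d = r) (f : K.F) : P.π r = 1 := by
  have hne : K.bd none ≠ [] := by
    intro h
    rcases Relation.ReflTransGen.cases_head (K.dconn none (some f)) with h1 | ⟨b, h1, -⟩
    · cases h1
    · obtain ⟨d, hd, -⟩ := h1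
      rw [h] at hd
      exact absurd hd (by simp)
  obtain ⟨d, l, hdl⟩ := List.exists_cons_of_ne_nil hne
  have hd : d ∈ (K.bd none).head? := by rw [hdl]; simp
  rw [← hroot d hd]
  exact P.base d hd

/-- the value of a cotree edge has minimal area the size of its subtree -/
theorem minA_sub (hRec : StmtRec) (hRepl : StmtRepl) (K : SqK σ) (P : K.GPot)
    (hmin : MinA σ (val K.outw) (Fintype.card K.F)) (T : K.toPC.Cotree)
    (hroot : ∀ d ∈ (K.bd none).head?, K.org d = T.root) (f : K.F) :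
    MinA σ (T.c (T.dd f)) (T.sub f).card := by
  have h1 : P.π T.root = 1 := base_root K P T.root hroot f
  refine ⟨⟨_, (hRec S σ K P T h1).2 f⟩, ?_⟩
  intro k' z' h'
  have h2 := hmin.2 _ _ (hRepl S σ K P T h1 hroot f k' z' h')
  have h3 : (T.sub f).card ≤ Fintype.card K.F := Finset.card_le_univ _
  omega

/-- (F3 a) isoperimetry of bonds -/
theorem bond_iso (hRec : StmtRec) (hRepl : StmtRepl) (hBond : StmtBond) (K : SqK σ) (P : K.GPot)
    (hmin : MinA σ (val K.outw) (Fintype.card K.F)) (Y : ℕ) (ψ : ℕ → ℝ)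
    (hiso : ∀ (u : FreeGroup (Let S)) (k : ℕ), k < Fintype.card K.F → MinA σ u k →
      ψ k ≤ (wtw Y u.toWord : ℝ))
    (C : Finset K.F) (hC : K.toPC.Bond C) (hne : C ≠ univ) :
    ψ C.card ≤ ∑ e ∈ K.toPC.bdry C, (wtl Y (K.lab e) : ℝ) := by
  obtain ⟨T, f, l, v, hsub, hroot, hnd, hset, hc⟩ := hBond _ K.toPC C hC
  have hm := minA_sub hRec hRepl K P hmin T hroot f
  rw [hsub, hc] at hm
  have hm2 := (F0.minA_conj_iff v).mp hm
  have hlt : C.card < Fintype.card K.F := by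
    rw [← Finset.card_univ]
    exact Finset.card_lt_card (Finset.ssubset_univ_iff.mpr hne)
  refine (hiso _ _ hlt hm2).trans ?_
  have h1 : wtw Y (FreeGroup.mk (l.map (fun d => (K.lab d.1, d.2)))).toWord ≤
      wtw Y (l.map (fun d => (K.lab d.1, d.2))) := F0.wtw_toWord_le Y rfl
  have h2 : wtw Y (l.map (fun d => (K.lab d.1, d.2))) = ∑ e ∈ K.toPC.bdry C, wtl Y (K.lab e) := by
    rw [← hset, List.sum_toFinset _ hnd]
    unfold wtw
    simp [List.map_map, Function.comp_def]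
  calc (wtw Y (FreeGroup.mk (l.map (fun d => (K.lab d.1, d.2)))).toWord : ℝ)
      ≤ (wtw Y (l.map (fun d => (K.lab d.1, d.2))) : ℝ) := by exact_mod_cast h1
    _ = ∑ e ∈ K.toPC.bdry C, (wtl Y (K.lab e) : ℝ) := by rw [h2]; push_cast; rfl

end Vale.Agent.P201.S
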