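import Vale.Agent.P201.S.PC

/-!
P201 part F, leaf F5b (helper859): the cut lemma for planar complexes.

`cut`: for a cotree `C` whose root subtrees have boundary in the outer boundary and all of whose
subtrees have small boundary inside, a subadditive isoperimetric function `psi` valid for all proper
bonds is either valid for the whole complex or there is a balanced cut.
-/

namespace Vale.Agent.P201.S

open Finset

namespace F5b

variable {A : Type} {K : PC A}

/-- weight of the outer boundary, with multiplicity -/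
noncomputable def wout (K : PC A) (w : K.E → ℝ) : ℝ := ((K.bd none).map (fun d => w d.1)).sum

lemma mem_unique {f g : Option K.F} {d : K.E × Bool} (hf : d ∈ K.bd f) (hg : d ∈ K.bd g) : f = g := by
  by_contra hne
  have h := K.once d
  have h1 : 1 ≤ (K.bd f).count d := List.one_le_count_iff.mpr hf
  have h2 : 1 ≤ (K.bd g).count d := List.one_le_count_iff.mpr hg
  have h3 : (K.bd f).count d + (K.bd g).count d ≤ ∑ f, (K.bd f).count d := by
    rw [← Finset.sum_pair (f := fun f => (K.bd f).count d) hne]
    exact Finset.sum_le_sum_of_subset (Finset.subset_univ _)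
  omega

lemma exists_face (K : PC A) (d : K.E × Bool) : ∃ f, d ∈ K.bd f := by
  by_contra hne
  push Not at hne
  have h := K.once d
  rw [Finset.sum_eq_zero (fun f _ => List.count_eq_zero.mpr (hne f))] at h
  omega

lemma fc_mem (K : PC A) (d : K.E × Bool) : d ∈ K.bd (K.fc d) :=
  Classical.epsilon_spec (exists_face K d)

lemma fc_eq {f : Option K.F} {d : K.E × Bool} (hf : d ∈ K.bd f) : K.fc d = f :=
  mem_unique (fc_mem K d) hf

lemma mem_bd_iff {f : Option K.F} {d : K.E × Bool} : d ∈ K.bd f ↔ K.fc d = f :=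
  ⟨fc_eq, fun h => h ▸ fc_mem K d⟩

@[simp] lemma rv_rv {E : Type} (d : E × Bool) : rv (rv d) = d := by
  simp [rv]

/-- dual adjacency -/
def Adj (K : PC A) (a b : Option K.F) : Prop := ∃ d, d ∈ K.bd a ∧ rv d ∈ K.bd b

lemma Adj.symm {a b : Option K.F} (h : Adj K a b) : Adj K b a := by
  obtain ⟨d, h1, h2⟩ := h
  exact ⟨rv d, h2, by simpa using h1⟩

/-- the face on the side `(e,b)` is in `C` -/
def Side (C : Finset K.F) (d : K.E × Bool) : Prop := ∃ f ∈ C, K.fc d = some f

lemma mem_bdry {C : Finset K.F} {e : K.E} :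
    e ∈ K.bdry C ↔ ∃ b : Bool, Side C (e, b) ∧ ¬ Side C (e, !b) := by
  unfold PC.bdry
  rw [Finset.mem_filter]
  simp only [Finset.mem_univ, true_and, mem_bd_iff]
  unfold Side
  constructor
  · intro h
    by_cases h1 : ∃ f ∈ C, K.fc (e, true) = some f
    · refine ⟨true, h1, fun h2 => h ?_⟩
      exact ⟨fun _ => by simpa using h2, fun _ => h1⟩
    · refine ⟨false, ?_, by simpa using h1⟩
      by_contra h2
      exact h ⟨fun h3 => absurd h3 h1, fun h3 => absurd h3 h2⟩
  · rintro ⟨b, h1, h2⟩ h
    cases b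
    · exact h2 (by simpa using h.mpr h1)
    · exact h2 (by simpa using h.mp h1)

lemma mem_outE {e : K.E} : e ∈ K.outE ↔ ∃ b : Bool, K.fc (e, b) = none := by
  unfold PC.outE
  rw [List.mem_toFinset, List.mem_map]
  constructor
  · rintro ⟨⟨e', b⟩, h1, h2⟩
    refine ⟨b, ?_⟩
    simp only at h2
    subst h2
    exact fc_eq h1
  · rintro ⟨b, h⟩
    exact ⟨(e, b), mem_bd_iff.mpr h, rfl⟩

lemma outE_le_wout (w : K.E → ℝ) (hw : ∀ e, 0 ≤ w e) : ∑ e ∈ K.outE, w e ≤ wout K w := by
  unfold wout PC.outE
  have h : (K.bd none).map (fun d => w d.1) = ((K.bd none).map Prod.fst).map w := by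
    rw [List.map_map]
    rfl
  rw [h, Finset.sum_list_map_count]
  apply Finset.sum_le_sum
  intro e he
  have h1 : 1 ≤ ((K.bd none).map Prod.fst).count e := List.one_le_count_iff.mpr (List.mem_toFinset.mp he)
  rw [nsmul_eq_mul]
  have h2 : (1 : ℝ) ≤ (((K.bd none).map Prod.fst).count e : ℝ) := by exact_mod_cast h1
  nlinarith [hw e]

lemma outE_side {S : Finset K.F} {e : K.E} (he : e ∈ K.outE) (hS : e ∈ K.bdry S) :
    ∃ b0 : Bool, K.fc (e, b0) = none ∧ Side S (e, !b0) := by
  obtain ⟨b0, hb0⟩ := mem_outE.mp he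
  refine ⟨b0, hb0, ?_⟩
  obtain ⟨b, hb1, hb2⟩ := mem_bdry.mp hS
  by_cases h : b = b0
  · obtain ⟨y, _, hy⟩ := hb1
    rw [h, hb0] at hy
    exact absurd hy (by simp)
  · have : b = !b0 := by cases b <;> cases b0 <;> simp_all
    rw [← this]
    exact hb1

/-- an outer edge in the boundary of a set of inner faces is in the boundary of the set of all faces -/
lemma mem_bdry_univ {S : Finset K.F} {e : K.E} (he : e ∈ K.outE) (hS : e ∈ K.bdry S) :
    e ∈ K.bdry univ := by
  obtain ⟨b0, hb0, y, _, hy⟩ := outE_side he hS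
  refine mem_bdry.mpr ⟨!b0, ⟨y, mem_univ _, hy⟩, ?_⟩
  rintro ⟨x, _, hx⟩
  rw [Bool.not_not, hb0] at hx
  exact absurd hx (by simp)

lemma bdry_univ_subset : K.bdry (univ : Finset K.F) ⊆ K.outE := by
  intro e he
  obtain ⟨b, _, h2⟩ := mem_bdry.mp he
  refine mem_outE.mpr ⟨!b, ?_⟩
  rcases hfc : K.fc (e, !b) with _ | y
  · rfl
  · exact absurd ⟨y, mem_univ _, hfc⟩ h2

lemma bdry_univ_le_wout (w : K.E → ℝ) (hw : ∀ e, 0 ≤ w e) : ∑ e ∈ K.bdry univ, w e ≤ wout K w :=
  (Finset.sum_le_sum_of_subset_of_nonneg bdry_univ_subset (fun e _ _ => hw e)).trans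
    (outE_le_wout w hw)

/-- reversing paths inside a set -/
lemma rtg_symm {X : Type} {P : X → Prop} {R : X → X → Prop} (hR : ∀ a b, R a b → R b a) {a b : X}
    (ha : P a) (h : Relation.ReflTransGen (fun a b => P b ∧ R a b) a b) :
    Relation.ReflTransGen (fun a b => P b ∧ R a b) b a := by
  induction h with
  | refl => exact Relation.ReflTransGen.refl
  | tail h1 h2 ih =>
    rename_i b c
    have hb : P b := by
      rcases Relation.ReflTransGen.cases_tail h1 with h3 | ⟨x, _, h3⟩
      · rw [h3]; exact ha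
      · exact h3.1
    exact Relation.ReflTransGen.head ⟨hb, hR _ _ h2.2⟩ ih

section Cotree

variable (C : K.Cotree)

lemma par_eq (f : K.F) : K.fc (rv (C.dd f)) = C.par f := fc_eq (C.memr f)

lemma dd_fc (f : K.F) : K.fc (C.dd f) = some f := fc_eq (C.mem f)

lemma dd_inj {f g : K.F} (h : C.dd f = C.dd g) : f = g := by
  have h1 := dd_fc C f
  have h2 := dd_fc C g
  rw [h, h2] at h1
  exact (Option.some.inj h1).symm

lemma adj_par (f : K.F) : Adj K (some f) (C.par f) := ⟨C.dd f, C.mem f, C.memr f⟩

lemma mem_sub {f g : K.F} : g ∈ C.sub f ↔ C.Desc f g := by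
  unfold PC.Cotree.sub
  simp

lemma self_mem_sub (f : K.F) : f ∈ C.sub f := (mem_sub C).mpr Relation.ReflTransGen.refl

lemma rank_le {f g : K.F} (h : C.Desc f g) : C.rank f ≤ C.rank g := by
  unfold PC.Cotree.Desc at h
  induction h with
  | refl => exact le_rfl
  | tail _ h2 ih => exact (C.dec _ _ h2).le.trans ih

/-- if `x` has the ancestors `g`, `g'`, one is an ancestor of the other -/
lemma desc_linear {x g g' : K.F} (h : C.Desc g x) (h' : C.Desc g' x) : C.Desc g g' ∨ C.Desc g' g := by
  unfold PC.Cotree.Desc at *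
  induction h using Relation.ReflTransGen.head_induction_on with
  | refl => right; exact h'
  | head h1 h2 ih =>
    rename_i a c
    rcases Relation.ReflTransGen.cases_head h' with h3 | ⟨y, h3, h4⟩
    · subst h3
      left
      exact Relation.ReflTransGen.head h1 h2
    · have : y = c := by
        rw [h1] at h3
        exact (Option.some.inj h3).symm
      subst this
      exact ih h4

lemma desc_ne {g g' : K.F} (h : C.Desc g g') (hne : g ≠ g') : ∃ y, C.par g' = some y ∧ C.Desc g y := by
  unfold PC.Cotree.Desc at *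
  rcases Relation.ReflTransGen.cases_head h with h3 | ⟨y, h3, h4⟩
  · exact absurd h3.symm hne
  · exact ⟨y, h3, h4⟩

/-- siblings have disjoint subtrees -/
lemma sib_disj {P : Option K.F} {g g' : K.F} (hg : C.par g = P) (hg' : C.par g' = P) (hne : g ≠ g') :
    Disjoint (C.sub g) (C.sub g') := by
  have key : ∀ a b : K.F, C.par a = P → C.par b = P → a ≠ b → ¬ C.Desc a b := by
    intro a b ha hb hab h
    obtain ⟨y, h1, h2⟩ := desc_ne C h hab
    rw [hb] at h1
    have h3 := C.dec a y (ha.trans h1)
    have h4 := rank_le C h2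
    omega
  rw [Finset.disjoint_left]
  intro x h1 h2
  rcases desc_linear C ((mem_sub C).mp h1) ((mem_sub C).mp h2) with h | h
  · exact key g g' hg hg' hne h
  · exact key g' g hg' hg (Ne.symm hne) h

/-- children of `P` -/
noncomputable def chd (P : Option K.F) : Finset K.F := by
  classical
  exact univ.filter (fun g => C.par g = P)

lemma mem_chd {P : Option K.F} {g : K.F} : g ∈ chd C P ↔ C.par g = P := by
  unfold chd
  simp

lemma chd_card (P : Option K.F) : (chd C P).card ≤ (K.bd P).length := by
  classical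
  calc (chd C P).card = ((chd C P).image (fun g => rv (C.dd g))).card := by
        rw [Finset.card_image_of_injOn]
        intro a _ b _ h
        have h1 : rv (rv (C.dd a)) = rv (rv (C.dd b)) := congrArg rv h
        rw [rv_rv, rv_rv] at h1
        exact dd_inj C h1
    _ ≤ (K.bd P).toFinset.card := by
        apply Finset.card_le_card
        intro d hd
        obtain ⟨g, hg, rfl⟩ := Finset.mem_image.mp hd
        rw [List.mem_toFinset]
        have := C.memr g
        rwa [(mem_chd C).mp hg] at this
    _ ≤ (K.bd P).length := List.toFinset_card_le _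

lemma exists_top (x : K.F) : ∃ g, C.par g = none ∧ C.Desc g x := by
  induction h : C.rank x using Nat.strong_induction_on generalizing x with
  | _ n ih =>
    rcases hp : C.par x with _ | y
    · exact ⟨x, hp, Relation.ReflTransGen.refl⟩
    · obtain ⟨g, h1, h2⟩ := ih (C.rank y) (h ▸ C.dec x y hp) y rfl
      exact ⟨g, h1, Relation.ReflTransGen.head hp h2⟩

lemma univ_eq [DecidableEq K.F] : (univ : Finset K.F) = (chd C none).biUnion C.sub := by
  ext x
  simp only [Finset.mem_univ, Finset.mem_biUnion, true_iff]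
  obtain ⟨g, h1, h2⟩ := exists_top C x
  exact ⟨g, (mem_chd C).mpr h1, (mem_sub C).mpr h2⟩

lemma sub_eq (f : K.F) : (C.sub f) = insert f ((chd C (some f)).biUnion C.sub) := by
  ext x
  rw [Finset.mem_insert, Finset.mem_biUnion, mem_sub]
  constructor
  · intro h
    unfold PC.Cotree.Desc at h
    rcases Relation.ReflTransGen.cases_tail h with h3 | ⟨y, h3, h4⟩
    · left; exact h3.symm
    · right
      exact ⟨y, (mem_chd C).mpr h4, (mem_sub C).mpr h3⟩
  · rintro (h | ⟨g, h1, h2⟩)
    · rw [h]; exact Relation.ReflTransGen.refl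
    · exact Relation.ReflTransGen.tail ((mem_sub C).mp h2) ((mem_chd C).mp h1)

lemma card_sub (f : K.F) : (C.sub f).card = 1 + ∑ g ∈ chd C (some f), (C.sub g).card := by
  rw [sub_eq C f, Finset.card_insert_of_notMem, Finset.card_biUnion, add_comm]
  · intro g hg g' hg' hne
    exact sib_disj C ((mem_chd C).mp hg) ((mem_chd C).mp hg') hne
  · rw [Finset.mem_biUnion]
    rintro ⟨g, h1, h2⟩
    have h3 := C.dec g f ((mem_chd C).mp h1)
    have h4 := rank_le C ((mem_sub C).mp h2)
    omega

lemma card_univ_eq : Fintype.card K.F = ∑ g ∈ chd C none, (C.sub g).card := by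
  rw [← Finset.card_univ, univ_eq C, Finset.card_biUnion]
  intro g hg g' hg' hne
  exact sib_disj C ((mem_chd C).mp hg) ((mem_chd C).mp hg') hne

/-- a subtree is a bond -/
lemma bond_sub (f : K.F) : K.Bond (C.sub f) := by
  refine ⟨⟨f, self_mem_sub C f⟩, ?_, ?_⟩
  · have up : ∀ g ∈ C.sub f, Relation.ReflTransGen
        (fun a b => b ∈ C.sub f ∧ Adj K (some a) (some b)) g f := by
      intro g hg
      have h := (mem_sub C).mp hg
      unfold PC.Cotree.Desc at h
      induction h using Relation.ReflTransGen.head_induction_on with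
      | refl => exact Relation.ReflTransGen.refl
      | head h1 h2 ih =>
        rename_i a c
        have hc : c ∈ C.sub f := (mem_sub C).mpr h2
        refine Relation.ReflTransGen.head ⟨hc, ?_⟩ (ih hc)
        rw [← h1]
        exact adj_par C a
    intro a ha b hb
    have h1 := up a ha
    have h2 := rtg_symm (P := fun b => b ∈ C.sub f) (R := fun a b => Adj K (some a) (some b))
      (fun _ _ h => h.symm) hb (up b hb)
    exact h1.trans h2
  · have up : ∀ n : ℕ, ∀ g : K.F, C.rank g = n → g ∉ C.sub f → Relation.ReflTransGen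
        (fun a b => (∀ x ∈ C.sub f, b ≠ some x) ∧ Adj K a b) (some g) none := by
      intro n
      induction n using Nat.strong_induction_on with
      | _ n ih =>
        intro g hn hg
        rcases hp : C.par g with _ | y
        · refine Relation.ReflTransGen.single ⟨fun x _ => by simp, ?_⟩
          rw [← hp]
          exact adj_par C g
        · have hy : y ∉ C.sub f := by
            intro h
            exact hg ((mem_sub C).mpr (Relation.ReflTransGen.head hp ((mem_sub C).mp h)))
          refine Relation.ReflTransGen.head ⟨?_, ?_⟩ (ih (C.rank y) (hn ▸ C.dec g y hp) y rfl hy)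
          · intro x hx h
            rw [Option.some.inj h] at hy
            exact hy hx
          · rw [← hp]
            exact adj_par C g
    have up2 : ∀ a : Option K.F, (∀ x ∈ C.sub f, a ≠ some x) → Relation.ReflTransGen
        (fun a b => (∀ x ∈ C.sub f, b ≠ some x) ∧ Adj K a b) a none := by
      intro a ha
      rcases a with _ | g
      · exact Relation.ReflTransGen.refl
      · exact up _ g rfl (fun h => ha g h rfl)
    intro a b ha hb
    have h2 := rtg_symm (P := fun b : Option K.F => ∀ x ∈ C.sub f, b ≠ some x) (R := Adj K)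
      (fun _ _ h => h.symm) hb (up2 b hb)
    exact (up2 a ha).trans h2

/-- centroid: a balanced subtree below a large one -/
lemma centroid (Δ : ℕ) (hΔ : ∀ f : K.F, (K.bd (some f)).length ≤ Δ) (hF : 2 ≤ Fintype.card K.F)
    (hf : ∃ f, Fintype.card K.F < 2 * (C.sub f).card) :
    ∃ g f, C.par g = some f ∧ Fintype.card K.F ≤ 4 * Δ * (C.sub g).card ∧
      2 * (C.sub g).card ≤ Fintype.card K.F := by
  classical
  obtain ⟨f, hf1, hf2⟩ := Finset.exists_max_image
    (univ.filter (fun f => Fintype.card K.F < 2 * (C.sub f).card)) C.rank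
    (by obtain ⟨f, hf⟩ := hf; exact ⟨f, by simp [hf]⟩)
  rw [Finset.mem_filter] at hf1
  have hc := card_sub C f
  have hne : (chd C (some f)).Nonempty := by
    rw [Finset.nonempty_iff_ne_empty]
    intro h
    rw [h] at hc
    simp at hc
    omega
  obtain ⟨g, hg1, hg2⟩ := Finset.exists_max_image (chd C (some f)) (fun g => (C.sub g).card) hne
  have hsum : ∑ g ∈ chd C (some f), (C.sub g).card ≤ Δ * (C.sub g).card := by
    calc ∑ g ∈ chd C (some f), (C.sub g).card ≤ ∑ _x ∈ chd C (some f), (C.sub g).card :=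
          Finset.sum_le_sum (fun x hx => hg2 x hx)
      _ = (chd C (some f)).card * (C.sub g).card := by rw [Finset.sum_const, smul_eq_mul]
      _ ≤ Δ * (C.sub g).card := Nat.mul_le_mul_right _ ((chd_card C _).trans (hΔ f))
  refine ⟨g, f, (mem_chd C).mp hg1, ?_, ?_⟩
  · have : 4 * Δ * (C.sub g).card = 4 * (Δ * (C.sub g).card) := by ring
    omega
  · by_contra h
    have h1 := hf2 g (by simp only [Finset.mem_filter, Finset.mem_univ, true_and]; omega)
    have h2 := C.dec g f ((mem_chd C).mp hg1)
    omega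

end Cotree

lemma psi_sum (psi : ℕ → ℝ) (h0 : psi 0 = 0) (hsub : ∀ a b, psi (a + b) ≤ psi a + psi b)
    {ι : Type} (s : Finset ι) (f : ι → ℕ) : psi (∑ i ∈ s, f i) ≤ ∑ i ∈ s, psi (f i) := by
  classical
  induction s using Finset.induction_on with
  | empty => simp [h0]
  | insert a s ha ih =>
    rw [Finset.sum_insert ha, Finset.sum_insert ha]
    exact (hsub _ _).trans (by linarith)

/-! ### components of a set of faces -/

section Comp

variable (S : Finset K.F)

open Classical in
/-- dual component of `x` in `S` -/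
noncomputable def comp (x : K.F) : Finset K.F :=
  univ.filter (fun y => Relation.ReflTransGen (fun a b => b ∈ S ∧ Adj K (some a) (some b)) x y)

lemma mem_comp {x y : K.F} : y ∈ comp S x ↔
    Relation.ReflTransGen (fun a b => b ∈ S ∧ Adj K (some a) (some b)) x y := by
  unfold comp
  simp

lemma self_mem_comp (x : K.F) : x ∈ comp S x := (mem_comp S).mpr Relation.ReflTransGen.refl

lemma comp_subset {x : K.F} (hx : x ∈ S) : comp S x ⊆ S := by
  intro y hy
  rcases Relation.ReflTransGen.cases_tail ((mem_comp S).mp hy) with h | ⟨z, _, h⟩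
  · rw [h]; exact hx
  · exact h.1

lemma comp_symm {x y : K.F} (hx : x ∈ S) (h : y ∈ comp S x) : x ∈ comp S y :=
  (mem_comp S).mpr (rtg_symm (P := fun b => b ∈ S) (R := fun a b => Adj K (some a) (some b))
    (fun _ _ h => h.symm) hx ((mem_comp S).mp h))

lemma comp_eq {x y : K.F} (hx : x ∈ S) (h : y ∈ comp S x) : comp S y = comp S x := by
  ext z
  have h2 := comp_symm S hx h
  rw [mem_comp] at *
  rw [mem_comp]
  exact ⟨fun h3 => h.trans h3, fun h3 => h2.trans h3⟩

lemma comp_adj {x y z : K.F} (hy : y ∈ comp S x) (hz : z ∈ S) (h : Adj K (some y) (some z)) :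
    z ∈ comp S x := (mem_comp S).mpr (((mem_comp S).mp hy).tail ⟨hz, h⟩)

/-- the components -/
noncomputable def comps : Finset (Finset K.F) := by
  classical
  exact S.image (comp S)

lemma mem_comps {D : Finset K.F} : D ∈ comps S ↔ ∃ x ∈ S, comp S x = D := by
  classical
  unfold comps
  simp

lemma comps_disj : ∀ D ∈ comps S, ∀ D' ∈ comps S, D ≠ D' → Disjoint D D' := by
  intro D hD D' hD' hne
  obtain ⟨x, hx, rfl⟩ := (mem_comps S).mp hD
  obtain ⟨y, hy, rfl⟩ := (mem_comps S).mp hD'
  rw [Finset.disjoint_left]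
  intro z h1 h2
  exact hne ((comp_eq S hx h1).symm.trans (comp_eq S hy h2))

lemma comps_card : ∑ D ∈ comps S, D.card = S.card := by
  classical
  have h : S = (comps S).biUnion id := by
    ext x
    rw [Finset.mem_biUnion]
    constructor
    · intro hx
      exact ⟨comp S x, (mem_comps S).mpr ⟨x, hx, rfl⟩, self_mem_comp S x⟩
    · rintro ⟨D, hD, hx⟩
      obtain ⟨y, hy, rfl⟩ := (mem_comps S).mp hD
      exact comp_subset S hy hx
  conv_rhs => rw [h]
  rw [Finset.card_biUnion]
  · rfl
  · intro D hD D' hD' hne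
    exact comps_disj S D hD D' hD' hne

/-- the other side of a boundary edge of a component is not in `S` -/
lemma comp_other {D : Finset K.F} (hD : D ∈ comps S) {e : K.E} {b : Bool} (h1 : Side D (e, b))
    (h2 : ¬ Side D (e, !b)) : ¬ Side S (e, !b) := by
  obtain ⟨x, hx, rfl⟩ := (mem_comps S).mp hD
  rintro ⟨g, hg, hg2⟩
  obtain ⟨f, hf, hf2⟩ := h1
  apply h2
  refine ⟨g, comp_adj S hf hg ⟨(e, b), mem_bd_iff.mpr hf2, mem_bd_iff.mpr hg2⟩, hg2⟩

lemma side_mono {D S : Finset K.F} (h : D ⊆ S) {d : K.E × Bool} (h1 : Side D d) : Side S d := by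
  obtain ⟨f, hf, hf2⟩ := h1
  exact ⟨f, h hf, hf2⟩

lemma comps_subset {D : Finset K.F} (hD : D ∈ comps S) : D ⊆ S := by
  obtain ⟨x, hx, rfl⟩ := (mem_comps S).mp hD
  exact comp_subset S hx

lemma comps_bdry_subset {D : Finset K.F} (hD : D ∈ comps S) : K.bdry D ⊆ K.bdry S := by
  intro e he
  obtain ⟨b, h1, h2⟩ := mem_bdry.mp he
  exact mem_bdry.mpr ⟨b, side_mono (comps_subset S hD) h1, comp_other S hD h1 h2⟩

lemma comps_bdry_disj {D D' : Finset K.F} (hD : D ∈ comps S) (hD' : D' ∈ comps S) (hne : D ≠ D') :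
    Disjoint (K.bdry D) (K.bdry D') := by
  rw [Finset.disjoint_left]
  intro e h1 h2
  obtain ⟨b, h3, h4⟩ := mem_bdry.mp h1
  obtain ⟨b', h5, h6⟩ := mem_bdry.mp h2
  have h7 := comp_other S hD h3 h4
  have h8 := side_mono (comps_subset S hD') h5
  by_cases hb : b' = b
  · subst hb
    obtain ⟨f, hf, hf2⟩ := h3
    obtain ⟨g, hg, hg2⟩ := h5
    rw [hf2] at hg2
    rw [← Option.some.inj hg2] at hg
    exact (Finset.disjoint_left.mp (comps_disj S D hD D' hD' hne)) hf hg
  · have : b' = !b := by cases b <;> cases b' <;> simp_all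
    rw [this] at h8
    exact h7 h8

lemma comps_bdry_sum (w : K.E → ℝ) (hw : ∀ e, 0 ≤ w e) :
    ∑ D ∈ comps S, ∑ e ∈ K.bdry D, w e ≤ ∑ e ∈ K.bdry S, w e := by
  classical
  rw [← Finset.sum_biUnion]
  · apply Finset.sum_le_sum_of_subset_of_nonneg
    · intro e he
      obtain ⟨D, hD, h⟩ := Finset.mem_biUnion.mp he
      exact comps_bdry_subset S hD h
    · intro e _ _
      exact hw e
  · intro D hD D' hD' hne
    exact comps_bdry_disj S hD hD' hne

end Comp

/-- components of the complement of a dual connected set which touches the outer face are bonds -/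
lemma comps_bond (C1 : Finset K.F) (hB : K.Bond C1) {e0 : K.E} (he0 : e0 ∈ K.bdry C1)
    (he0' : e0 ∈ K.outE) (D : Finset K.F) (hD : D ∈ comps (univ \ C1)) : K.Bond D := by
  classical
  obtain ⟨x, hx, hxD⟩ := (mem_comps _).mp hD
  refine ⟨⟨x, hxD ▸ self_mem_comp _ x⟩, ?_, ?_⟩
  · -- inside
    have key : ∀ f ∈ D, ∀ g, Relation.ReflTransGen
        (fun a b => b ∈ univ \ C1 ∧ Adj K (some a) (some b)) f g →
        Relation.ReflTransGen (fun a b => b ∈ D ∧ Adj K (some a) (some b)) f g := by
      intro f hf g h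
      induction h with
      | refl => exact Relation.ReflTransGen.refl
      | tail h1 h2 ih =>
        rename_i b c
        refine ih.tail ⟨?_, h2.2⟩
        have hb : c ∈ comp (univ \ C1) f := (mem_comp _).mpr (h1.tail h2)
        rw [← hxD] at hf ⊢
        rwa [comp_eq _ hx hf] at hb
    intro f hf g hg
    have hf' := hf
    have hg' := hg
    rw [← hxD] at hf' hg'
    apply key f hf g
    have h1 := (mem_comp _).mp (comp_symm _ hx hf')
    exact h1.trans ((mem_comp _).mp hg')
  · -- outside
    have hDs : D ⊆ univ \ C1 := comps_subset _ hD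
    obtain ⟨b, hs1, hs2⟩ := mem_bdry.mp he0
    obtain ⟨f0, hf0, hf0'⟩ := hs1
    have hnone : K.fc (e0, !b) = none := by
      obtain ⟨b', hb'⟩ := mem_outE.mp he0'
      by_cases h : b' = b
      · rw [h, hf0'] at hb'
        exact absurd hb' (by simp)
      · have : b' = !b := by cases b <;> cases b' <;> simp_all
        rw [this] at hb'
        exact hb'
    have hC1 : ∀ y ∈ C1, Relation.ReflTransGen
        (fun a b => (∀ x ∈ D, b ≠ some x) ∧ Adj K a b) (some y) none := by
      intro y hy
      have h1 := hB.2.1 y hy f0 hf0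
      have h2 : Relation.ReflTransGen
          (fun a b => (∀ x ∈ D, b ≠ some x) ∧ Adj K a b) (some y) (some f0) := by
        refine Relation.ReflTransGen.lift (p := fun a b : Option K.F => (∀ x ∈ D, b ≠ some x) ∧ Adj K a b)
          some ?_ _ _ h1
        rintro a c ⟨hc, hadj⟩
        refine ⟨?_, hadj⟩
        intro z hz h
        have := hDs hz
        rw [← Option.some.inj h] at this
        exact (Finset.mem_sdiff.mp this).2 hc
      refine h2.tail ⟨fun x _ => by simp, ?_⟩
      exact ⟨(e0, b), mem_bd_iff.mpr hf0', mem_bd_iff.mpr hnone⟩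
    have up : ∀ a : Option K.F, (∀ x ∈ D, a ≠ some x) → Relation.ReflTransGen
        (fun a b => (∀ x ∈ D, b ≠ some x) ∧ Adj K a b) a none := by
      intro a
      have h := K.dconn a none
      induction h using Relation.ReflTransGen.head_induction_on with
      | refl => intro _; exact Relation.ReflTransGen.refl
      | head h1 h2 ih =>
        rename_i a c
        intro ha
        rcases a with _ | y
        · exact Relation.ReflTransGen.refl
        by_cases hy : y ∈ C1
        · exact hC1 y hy
        · have hcD : ∀ x ∈ D, c ≠ some x := by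
            intro z hz h
            subst h
            have h3 : y ∈ univ \ C1 := by simp [hy]
            have hz' := hz
            rw [← hxD] at hz'
            have : y ∈ comp (univ \ C1) x := comp_adj _ hz' h3 (Adj.symm h1)
            rw [hxD] at this
            exact ha y this rfl
          exact Relation.ReflTransGen.head ⟨hcD, h1⟩ (ih hcD)
    intro f g hf hg
    have h2 := rtg_symm (P := fun b : Option K.F => ∀ x ∈ D, b ≠ some x) (R := Adj K)
      (fun _ _ h => h.symm) hg (up g hg)
    exact (up f hf).trans h2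

/-- **The cut lemma.** -/
theorem cut (C : K.Cotree) (w : K.E → ℝ) (hw : ∀ e, 0 ≤ w e) (psi : ℕ → ℝ) (h0 : psi 0 = 0)
    (hsub : ∀ a b, psi (a + b) ≤ psi a + psi b)
    (hiso : ∀ D : Finset K.F, K.Bond D → D ≠ univ → psi D.card ≤ ∑ e ∈ K.bdry D, w e)
    (Δ : ℕ) (hΔ : ∀ f : K.F, (K.bd (some f)).length ≤ Δ) (z : ℝ)
    (hz : ∀ f, ∑ e ∈ K.bdry (C.sub f) \ K.outE, w e ≤ z)
    (hP1 : ∀ f, C.par f = none → K.bdry (C.sub f) ⊆ K.outE)
    (hF : 2 ≤ Fintype.card K.F) :
    psi (Fintype.card K.F) ≤ ∑ e ∈ K.bdry univ, w e ∨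
      ∃ s, Fintype.card K.F ≤ 4 * Δ * s ∧ 2 * s ≤ Fintype.card K.F ∧
        (psi s ≤ z ∨ psi s + psi (Fintype.card K.F - s) ≤ ∑ e ∈ K.bdry univ, w e + 2 * z) := by
  classical
  by_cases hbig : ∃ f, Fintype.card K.F < 2 * (C.sub f).card
  · right
    obtain ⟨g, f, hgf, hg1, hg2⟩ := centroid C Δ hΔ hF hbig
    refine ⟨(C.sub g).card, hg1, hg2, ?_⟩
    have hne : C.sub g ≠ univ := by
      intro h
      have := Finset.card_univ (α := K.F)
      rw [← h] at this
      omega
    have hi1 := hiso _ (bond_sub C g) hne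
    by_cases hint : ∃ e0, e0 ∈ K.bdry (C.sub g) ∧ e0 ∈ K.outE
    · right
      obtain ⟨e0, he0, he0'⟩ := hint
      set C1 := C.sub g with hC1
      have hcard : (univ \ C1).card = Fintype.card K.F - C1.card := by
        rw [Finset.card_sdiff_of_subset (Finset.subset_univ _), Finset.card_univ]
      have hC1ne : C1.Nonempty := ⟨g, self_mem_sub C g⟩
      have h2 : psi (Fintype.card K.F - C1.card) ≤ ∑ e ∈ K.bdry (univ \ C1), w e := by
        calc psi (Fintype.card K.F - C1.card) = psi (∑ D ∈ comps (univ \ C1), D.card) := by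
              rw [comps_card, hcard]
          _ ≤ ∑ D ∈ comps (univ \ C1), psi D.card := psi_sum psi h0 hsub _ _
          _ ≤ ∑ D ∈ comps (univ \ C1), ∑ e ∈ K.bdry D, w e := by
              apply Finset.sum_le_sum
              intro D hD
              apply hiso D (comps_bond C1 (bond_sub C g) he0 he0' D hD)
              intro h
              obtain ⟨y, hy⟩ := hC1ne
              have := comps_subset _ hD (h ▸ Finset.mem_univ y)
              exact (Finset.mem_sdiff.mp this).2 hy
          _ ≤ ∑ e ∈ K.bdry (univ \ C1), w e := comps_bdry_sum _ w hw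
      have h3 : ∑ e ∈ K.bdry C1, w e = ∑ e ∈ K.bdry C1 ∩ K.outE, w e + ∑ e ∈ K.bdry C1 \ K.outE, w e :=
        (Finset.sum_inter_add_sum_sdiff _ _ _).symm
      have h4 : ∑ e ∈ K.bdry (univ \ C1), w e = ∑ e ∈ K.bdry (univ \ C1) ∩ K.outE, w e +
          ∑ e ∈ K.bdry (univ \ C1) \ K.outE, w e :=
        (Finset.sum_inter_add_sum_sdiff _ _ _).symm
      have h5 : ∑ e ∈ K.bdry (univ \ C1) \ K.outE, w e ≤ ∑ e ∈ K.bdry C1 \ K.outE, w e := by
        apply Finset.sum_le_sum_of_subset_of_nonneg
        · intro e he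
          rw [Finset.mem_sdiff] at he ⊢
          refine ⟨?_, he.2⟩
          obtain ⟨b, hb1, hb2⟩ := mem_bdry.mp he.1
          apply mem_bdry.mpr
          refine ⟨!b, ?_, ?_⟩
          · rcases hfc : K.fc (e, !b) with _ | y
            · exact absurd (mem_outE.mpr ⟨!b, hfc⟩) he.2
            · by_cases hy : y ∈ C1
              · exact ⟨y, hy, hfc⟩
              · exact absurd ⟨y, by simp [hy], hfc⟩ hb2
          · rintro ⟨y, hy, hfc⟩
            rw [Bool.not_not] at hfc
            obtain ⟨y', hy', hfc'⟩ := hb1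
            rw [hfc] at hfc'
            rw [← Option.some.inj hfc'] at hy'
            exact (Finset.mem_sdiff.mp hy').2 hy
        · intro e _ _
          exact hw e
      have h6 : ∑ e ∈ K.bdry C1 ∩ K.outE, w e + ∑ e ∈ K.bdry (univ \ C1) ∩ K.outE, w e ≤
          ∑ e ∈ K.bdry univ, w e := by
        rw [← Finset.sum_union]
        · apply Finset.sum_le_sum_of_subset_of_nonneg
          · intro e he
            rcases Finset.mem_union.mp he with h | h
            · exact mem_bdry_univ (Finset.mem_inter.mp h).2 (Finset.mem_inter.mp h).1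
            · exact mem_bdry_univ (Finset.mem_inter.mp h).2 (Finset.mem_inter.mp h).1
          · intro e _ _
            exact hw e
        · rw [Finset.disjoint_left]
          intro e h7 h8
          rw [Finset.mem_inter] at h7 h8
          obtain ⟨b0, hb0, y, hy, hfc⟩ := outE_side h7.2 h7.1
          obtain ⟨b1, hb1, y', hy', hfc'⟩ := outE_side h8.2 h8.1
          have hbb : b1 = b0 := by
            by_contra hne
            have : b1 = !b0 := by cases b0 <;> cases b1 <;> simp_all
            rw [this, hfc] at hb1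
            exact absurd hb1 (by simp)
          rw [hbb, hfc] at hfc'
          rw [← Option.some.inj hfc'] at hy'
          exact (Finset.mem_sdiff.mp hy').2 hy
      have h8 := hz g
      rw [← hC1] at h8
      linarith
    · left
      have : K.bdry (C.sub g) \ K.outE = K.bdry (C.sub g) := by
        rw [Finset.sdiff_eq_self_iff_disjoint, Finset.disjoint_left]
        intro e h1 h2
        exact hint ⟨e, h1, h2⟩
      have h8 := hz g
      rw [this] at h8
      exact hi1.trans h8
  · left
    push Not at hbig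
    calc psi (Fintype.card K.F) = psi (∑ g ∈ chd C none, (C.sub g).card) := by rw [← card_univ_eq C]
      _ ≤ ∑ g ∈ chd C none, psi (C.sub g).card := psi_sum psi h0 hsub _ _
      _ ≤ ∑ g ∈ chd C none, ∑ e ∈ K.bdry (C.sub g), w e := by
          apply Finset.sum_le_sum
          intro g hg
          apply hiso _ (bond_sub C g)
          intro h
          have h1 := hbig g
          rw [h, Finset.card_univ] at h1
          omega
      _ ≤ ∑ e ∈ K.bdry univ, w e := by
          rw [← Finset.sum_biUnion]
          · apply Finset.sum_le_sum_of_subset_of_nonneg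
            · intro e he
              obtain ⟨g, hg, h⟩ := Finset.mem_biUnion.mp he
              exact mem_bdry_univ (hP1 g ((mem_chd C).mp hg) h) h
            · intro e _ _
              exact hw e
          · intro g hg g' hg' hne
            rw [Function.onFun, Finset.disjoint_left]
            intro e h1 h2
            have h3 := hP1 g ((mem_chd C).mp hg) h1
            obtain ⟨b0, hb0, y, hy, hfc⟩ := outE_side h3 h1
            obtain ⟨b1, hb1, y', hy', hfc'⟩ := outE_side h3 h2
            have hbb : b1 = b0 := by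
              by_contra hne
              have : b1 = !b0 := by cases b0 <;> cases b1 <;> simp_all
              rw [this, hfc] at hb1
              exact absurd hb1 (by simp)
            rw [hbb, hfc] at hfc'
            rw [← Option.some.inj hfc'] at hy'
            exact (Finset.disjoint_left.mp (sib_disj C ((mem_chd C).mp hg) ((mem_chd C).mp hg') hne))
              hy hy'

/-- the end of an outer dart is the origin of another outer dart -/
lemma outer_next {f : Option K.F} {a : K.E × Bool} (ha : a ∈ K.bd f) :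
    ∃ b ∈ K.bd f, K.org b = K.org (rv a) := by
  obtain ⟨l1, l2, h⟩ := List.append_of_mem ha
  rcases l2 with _ | ⟨b, l2⟩
  · -- `a` is the last one
    have hlast : a ∈ (K.bd f).getLast? := by rw [h]; simp
    rcases hh : (K.bd f).head? with _ | c
    · rw [List.head?_eq_none_iff] at hh
      rw [hh] at ha
      simp at ha
    · exact ⟨c, List.mem_of_head? hh, K.closed f a hlast c (by rw [hh]; simp)⟩
  · refine ⟨b, by rw [h]; simp, ?_⟩
    have hc := K.chain f
    rw [h, List.isChain_append] at hc
    have hc2 := hc.2.1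
    rw [List.isChain_cons_cons] at hc2
    exact hc2.1

/-- cut lemma for a spanning tree with (P1), (P2) -/
theorem cut_tree (hT1 : StmtT1) (T : K.STree) (w : K.E → ℝ) (hw : ∀ e, 0 ≤ w e) (psi : ℕ → ℝ)
    (h0 : psi 0 = 0) (hsub : ∀ a b, psi (a + b) ≤ psi a + psi b)
    (hiso : ∀ D : Finset K.F, K.Bond D → D ≠ univ → psi D.card ≤ ∑ e ∈ K.bdry D, w e)
    (Δ : ℕ) (hΔ : ∀ f : K.F, (K.bd (some f)).length ≤ Δ) (Y R : ℝ) (hY : ∀ e, w e ≤ Y)
    (P1 : ∀ v, (∃ d ∈ K.bd none, K.org d = v) → ∀ e, T.Anc v e → e ∈ K.outE)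
    (P2 : ∀ (v : K.V) (S : Finset K.E), (∀ e ∈ S, T.Anc v e ∧ e ∉ K.outE) → ∑ e ∈ S, w e ≤ R)
    (hF : 2 ≤ Fintype.card K.F) :
    psi (Fintype.card K.F) ≤ ∑ e ∈ K.bdry univ, w e ∨
      ∃ s, Fintype.card K.F ≤ 4 * Δ * s ∧ 2 * s ≤ Fintype.card K.F ∧
        (psi s ≤ 2 * R + Y ∨
          psi s + psi (Fintype.card K.F - s) ≤ ∑ e ∈ K.bdry univ, w e + 2 * (2 * R + Y)) := by
  classical
  obtain ⟨C, _, hC1, hC2⟩ := hT1 A K T
  refine cut C w hw psi h0 hsub hiso Δ hΔ (2 * R + Y) ?_ ?_ hF
  · intro f
    set S := K.bdry (C.sub f) \ K.outE with hS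
    have hsubs : S ⊆ ({(C.dd f).1} : Finset K.E) ∪
        (S.filter (fun e => T.Anc (K.org (C.dd f)) e) ∪ S.filter (fun e => T.Anc (K.org (rv (C.dd f))) e)) := by
      intro e he
      have h1 := hC2 f e (Finset.mem_sdiff.mp he).1
      simp only [Finset.mem_union, Finset.mem_singleton, Finset.mem_filter]
      tauto
    have ha : ∑ e ∈ S.filter (fun e => T.Anc (K.org (C.dd f)) e), w e ≤ R :=
      P2 _ _ (fun e he => ⟨(Finset.mem_filter.mp he).2,
        (Finset.mem_sdiff.mp (Finset.mem_filter.mp he).1).2⟩)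
    have hb : ∑ e ∈ S.filter (fun e => T.Anc (K.org (rv (C.dd f))) e), w e ≤ R :=
      P2 _ _ (fun e he => ⟨(Finset.mem_filter.mp he).2,
        (Finset.mem_sdiff.mp (Finset.mem_filter.mp he).1).2⟩)
    have hun : ∀ X Z : Finset K.E, ∑ e ∈ X ∪ Z, w e ≤ ∑ e ∈ X, w e + ∑ e ∈ Z, w e := by
      intro X Z
      rw [← Finset.sum_union_inter]
      have : 0 ≤ ∑ e ∈ X ∩ Z, w e := Finset.sum_nonneg (fun e _ => hw e)
      linarith
    calc ∑ e ∈ S, w e ≤ ∑ e ∈ ({(C.dd f).1} : Finset K.E) ∪
        (S.filter (fun e => T.Anc (K.org (C.dd f)) e) ∪ S.filter (fun e => T.Anc (K.org (rv (C.dd f))) e)), w e :=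
          Finset.sum_le_sum_of_subset_of_nonneg hsubs (fun e _ _ => hw e)
      _ ≤ ∑ e ∈ ({(C.dd f).1} : Finset K.E), w e + (∑ e ∈ S.filter (fun e => T.Anc (K.org (C.dd f)) e), w e +
            ∑ e ∈ S.filter (fun e => T.Anc (K.org (rv (C.dd f))) e), w e) := by
          refine (hun _ _).trans ?_
          have := hun (S.filter (fun e => T.Anc (K.org (C.dd f)) e))
            (S.filter (fun e => T.Anc (K.org (rv (C.dd f))) e))
          linarith
      _ ≤ 2 * R + Y := by
          rw [Finset.sum_singleton]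
          have := hY (C.dd f).1
          linarith
  · intro f hf e he
    have hr : rv (C.dd f) ∈ K.bd none := by
      have := C.memr f
      rwa [hf] at this
    rcases hC2 f e he with h | h | h
    · rw [h]
      apply mem_outE.mpr
      exact ⟨!(C.dd f).2, fc_eq hr⟩
    · apply P1 (K.org (C.dd f)) _ e h
      obtain ⟨b, hb1, hb2⟩ := outer_next hr
      rw [rv_rv] at hb2
      exact ⟨b, hb1, hb2⟩
    · exact P1 (K.org (rv (C.dd f))) ⟨_, hr, rfl⟩ e h

end F5b

end Vale.Agent.P201.S
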