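import Vale.Agent.P201.S.Wtl
import Vale.Agent.P201.S.PC
import Vale.Agent.P201.S.D.ExprAPI

/-!
P201, part F6: consequences of the global isoperimetric inequality (helper165).
`no_tpow` : powers of `t` have no expression; `short_words` : second half of `StmtGlob`.
-/

namespace Vale.Agent.P201.S

open Finset

namespace F6

variable {S : Sys} {σ : Equiv.Perm (S.C)}

/-! ### weights of words -/

theorem wtw_nil (Y : ℕ) : wtw Y ([] : List (Let S × Bool)) = 0 := rfl

theorem wtw_cons (Y : ℕ) (a : Let S × Bool) (l : List (Let S × Bool)) :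
    wtw Y (a :: l) = wtl Y a.1 + wtw Y l := by
  simp [wtw]

theorem wtw_append (Y : ℕ) (l l' : List (Let S × Bool)) :
    wtw Y (l ++ l') = wtw Y l + wtw Y l' := by
  simp [wtw]

theorem wtw_sublist (Y : ℕ) {l l' : List (Let S × Bool)} (h : l.Sublist l') :
    wtw Y l ≤ wtw Y l' := by
  induction h with
  | slnil => exact le_rfl
  | cons a _ ih => rw [wtw_cons]; omega
  | cons_cons a _ ih => rw [wtw_cons, wtw_cons]; omega

theorem toWord_sublist (l : List (Let S × Bool)) : (val l).toWord.Sublist l := by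
  rw [val, FreeGroup.toWord_mk]
  exact FreeGroup.Red.sublist FreeGroup.reduce.red

theorem wtw_toWord_le (Y : ℕ) (l : List (Let S × Bool)) : wtw Y (val l).toWord ≤ wtw Y l :=
  wtw_sublist Y (toWord_sublist l)

theorem val_toWord (u : FreeGroup (Let S)) : val u.toWord = u := FreeGroup.mk_toWord

theorem wtw_tw (Y : ℕ) (m : ℤ) : wtw Y (tw S m) = 0 := wtw_tw_zero Y m

/-- weight of a word without `y`-letters does not depend on `Y` -/
theorem wtw_noy (Y Y' : ℕ) (l : List (Let S × Bool)) (h : ∀ a ∈ l, ∀ j, a.1 ≠ Let.y j) :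
    wtw Y l = wtw Y' l := by
  induction l with
  | nil => rfl
  | cons a l ih =>
    rw [wtw_cons, wtw_cons, ih (fun b hb => h b (List.mem_cons_of_mem _ hb))]
    congr 1
    have h1 := h a (List.mem_cons_self)
    cases ha : a.1 with
    | t => rfl
    | x i => rfl
    | y j => exact absurd ha (h1 j)

/-! ### powers of `t` in the free group -/

/-- exponent sum -/
def expo : FreeGroup (Let S) →* Multiplicative ℤ := FreeGroup.lift (fun _ => Multiplicative.ofAdd 1)

theorem expo_rep (k : ℕ) (b : Bool) (a : Let S) :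
    expo (val (List.replicate k (a, b))) = Multiplicative.ofAdd ((if b then 1 else -1) * (k : ℤ)) := by
  induction k with
  | zero => simp [val, expo]
  | succ k ih =>
    have h1 : val (List.replicate (k + 1) (a, b)) = val [(a, b)] * val (List.replicate k (a, b)) := by
      rw [List.replicate_succ, ← List.singleton_append, EX.val_append]
    rw [h1, map_mul, ih]
    cases b
    · have h2 : val [(a, false)] = (FreeGroup.of a)⁻¹ := rfl
      rw [h2, map_inv, expo, FreeGroup.lift_apply_of, ← ofAdd_neg, ← ofAdd_add]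
      congr 1
      push_cast
      simp
    · have h2 : val [(a, true)] = FreeGroup.of a := rfl
      rw [h2, expo, FreeGroup.lift_apply_of, ← ofAdd_add]
      congr 1
      push_cast
      simp
      ring

theorem expo_tw (m : ℤ) : expo (val (tw S m)) = Multiplicative.ofAdd m := by
  rw [tw, expo_rep]
  congr 1
  by_cases h : 0 ≤ m
  · simp [h]
  · simp only [h, decide_false]
    have : ((m.natAbs : ℕ) : ℤ) = -m := by omega
    simp [this]

theorem tw_ne {m : ℤ} (hm : m ≠ 0) : val (tw S m) ≠ 1 := by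
  intro h
  have h1 := expo_tw (S := S) m
  rw [h, map_one] at h1
  exact hm (Multiplicative.ofAdd.injective h1.symm)

/-! ### minimal area -/

theorem expr_zero {u : FreeGroup (Let S)} {z : Chn σ} (h : Expr σ 0 u z) : u = 1 ∧ z = 0 := by
  generalize hk : (0 : ℕ) = k at h
  cases h with
  | nil => exact ⟨rfl, rfl⟩
  | cons k u z v q _ => exact absurd hk (by omega)

theorem exists_minA {u : FreeGroup (Let S)} {k : ℕ} {z : Chn σ} (h : Expr σ k u z) :
    ∃ k0, k0 ≤ k ∧ MinA σ u k0 := by
  classical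
  have hex : ∃ k, ∃ z, Expr σ k u z := ⟨k, z, h⟩
  exact ⟨Nat.find hex, Nat.find_min' hex ⟨z, h⟩, Nat.find_spec hex,
    fun k' z' h' => Nat.find_min' hex ⟨z', h'⟩⟩

theorem noRed_of_minA {u : FreeGroup (Let S)} {k : ℕ} (h : MinA σ u k) (z : Chn σ) :
    NoRed σ u k z := by
  intro k1 z1 h1 h2 _ h4
  have := h.2 _ _ h4
  omega

/-- elements of the kernel have expressions -/
theorem of_ker {u : FreeGroup (Let S)} (hu : PresentedGroup.mk (rels σ) u = 1) :
    ∃ k z, Expr σ k u z := by
  let N : Subgroup (FreeGroup (Let S)) :=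
    { carrier := {u | ∃ k z, Expr σ k u z}
      mul_mem' := fun ⟨k, z, h⟩ ⟨k', z', h'⟩ => ⟨k + k', z + z', EX.mul h h'⟩
      one_mem' := ⟨0, 0, Expr.nil⟩
      inv_mem' := fun ⟨k, z, h⟩ => ⟨k, -z, EX.inv h⟩ }
  have hN : N.Normal := ⟨fun u ⟨k, z, h⟩ w => ⟨k, _, EX.conj w h⟩⟩
  have hle : Subgroup.normalClosure (rels σ) ≤ N := by
    refine Subgroup.normalClosure_le_normal ?_
    rintro _ ⟨q, rfl⟩
    have h := EX.sq (σ := σ) 1 q
    rw [one_mul, inv_one, mul_one] at h
    exact ⟨1, _, h⟩
  exact hle (PresentedGroup.mk_eq_one_iff.mp hu)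

/-! ### F6 (a) -/

/-- **F6 (a)**: no nontrivial power of `t` has an expression. -/
theorem no_tpow (Y : ℕ) (ψ : ℕ → ℝ) (hψ : ∀ k, 0 < k → 0 < ψ k)
    (iso : ∀ (u : FreeGroup (Let S)) (k : ℕ), MinA σ u k → ψ k ≤ (wtw Y u.toWord : ℝ)) :
    ∀ (m : ℤ) (k : ℕ) (z : Chn σ), m ≠ 0 → ¬ Expr σ k (val (tw S m)) z := by
  intro m k z hm h
  obtain ⟨k0, -, hk0⟩ := exists_minA h
  have h1 := iso _ _ hk0
  have h2 : wtw Y (val (tw S m)).toWord = 0 := by
    have := wtw_toWord_le Y (tw S m)
    rw [wtw_tw] at this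
    omega
  rw [h2, Nat.cast_zero] at h1
  rcases Nat.eq_zero_or_pos k0 with h3 | h3
  · subst h3
    obtain ⟨z', h4⟩ := hk0.1
    exact tw_ne hm (expr_zero h4).1
  · exact absurd h1 (not_le.2 (hψ k0 h3))

/-! ### F6 (b) -/

theorem per_of_total {S : Type} [Fintype S] (f : S ≃. S) (h : ∀ s, (f s).isSome) (s : S) :
    Per f s := by
  choose F hF using fun s => Option.isSome_iff_exists.1 (h s)
  have hinj : Function.Injective F := by
    intro a b hab
    refine f.inj (b := F a) (hF a) ?_
    show f b = some (F a)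
    rw [hF b, hab]
  have hpit : ∀ k s, pit f k s = some (F^[k] s) := by
    intro k
    induction k with
    | zero => intro s; rfl
    | succ k ih =>
      intro s
      show (f s).bind (pit f k) = _
      rw [hF s]
      show pit f k (F s) = _
      rw [ih]
      rfl
  obtain ⟨k, hk, hk2⟩ := Function.mem_periodicPts.1 (Function.Injective.mem_periodicPts hinj s)
  exact ⟨k, hk, by rw [hpit, hk2]⟩

/-- **F6 (b)**: words without `y`-letters and of weight at most `2` which are trivial in the group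
are trivial. -/
theorem short_words (hVK : StmtVK) (hBr : StmtBridge) {g Y : ℕ}
    (hgo : ∀ G : Glue σ, G.Red → ∀ s, Per G.Y s → g ≤ (orb G.Y s).card)
    {e : ℝ} (he : 0 < e)
    (iso : ∀ (u : FreeGroup (Let S)) (k : ℕ), MinA σ u k → e * k ≤ (wtw Y u.toWord : ℝ))
    (hbig : 2 < e * g) :
    ∀ l : List (Let S × Bool), (∀ a ∈ l, ∀ j, a.1 ≠ Let.y j) → wtw Y l ≤ 2 →
      PresentedGroup.mk (rels σ) (val l) = 1 → val l = 1 := by
  intro l hl hw h1
  obtain ⟨k', z', h2⟩ := of_ker h1
  obtain ⟨k, -, hk⟩ := exists_minA h2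
  obtain ⟨z, hz⟩ := hk.1
  rcases Nat.eq_zero_or_pos k with h3 | h3
  · subst h3
    exact (expr_zero hz).1
  exfalso
  have hNR := noRed_of_minA hk z
  obtain ⟨K, P, hc, ho, hch⟩ := hVK S σ _ k z hz hNR
  have hval : val K.outw = val l := by rw [ho, val_toWord]
  have htp : ∀ (m : ℤ) (k : ℕ) (z : Chn σ), m ≠ 0 → ¬ Expr σ k (val (tw S m)) z := by
    refine no_tpow Y (fun k => e * k) (fun k hk => ?_) iso
    have : (0 : ℝ) < k := by exact_mod_cast hk
    positivity
  obtain ⟨G, hR, -, -, hS, hwt⟩ := hBr S σ K P (by rw [hval, hc, hch]; exact hNR)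
    (fun m k z hm h => absurd h (htp m k z hm))
  have hsub : K.outw.Sublist l := by rw [ho]; exact toWord_sublist l
  have hnoy : ∀ a ∈ K.outw, ∀ j, a.1 ≠ Let.y j := fun a ha => hl a (hsub.subset ha)
  have hle2 : ∀ Y', wtw Y' K.outw ≤ 2 := by
    intro Y'
    rw [wtw_noy Y' Y _ hnoy]
    exact (wtw_sublist Y hsub).trans hw
  have hdom : domc G.Y = Fintype.card G.Q := by
    have h4 := hwt 3
    have h5 := hle2 3
    have h6 : domc G.Y ≤ Fintype.card G.Q := card_le_univ _
    omega
  have htot : ∀ s, (G.Y s).isSome := by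
    classical
    have h5 : (univ.filter (fun s => (G.Y s).isSome)) = (univ : Finset G.Q) := by
      refine Finset.eq_univ_of_card _ ?_
      rw [← hdom, domc]
    intro s
    have h6 : s ∈ (univ.filter (fun s => (G.Y s).isSome)) := by rw [h5]; exact mem_univ s
    exact (mem_filter.1 h6).2
  have hpos : 0 < Fintype.card G.Q := by rw [hS, hc]; exact h3
  obtain ⟨s⟩ := Fintype.card_pos_iff.1 hpos
  have hg := hgo G hR s (per_of_total G.Y htot s)
  have hg2 : g ≤ k := by
    refine hg.trans ?_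
    rw [← hc, ← hS]
    exact card_le_univ _
  have h7 := iso _ _ hk
  have h8 : (wtw Y (val l).toWord : ℝ) ≤ 2 := by
    exact_mod_cast (wtw_toWord_le Y l).trans hw
  have h9 : e * (g : ℝ) ≤ e * k := by
    have : (g : ℝ) ≤ k := by exact_mod_cast hg2
    exact mul_le_mul_of_nonneg_left this he.le
  linarith

end F6

end Vale.Agent.P201.S
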