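import Vale.Agent.P201.S.F.Sq

/-!
P201, part F7 (d): shortest path trees and balanced cuts.
-/

namespace Vale.Agent.P201.S.F7d

open Finset Vale.Agent.P201.S

variable {A : Type} (K : PC A)

/-- walk from `v` to `u` with weight `a` and length `b` -/
inductive Wk (w : K.E → ℕ) (u : K.V) : K.V → ℕ → ℕ → Prop
  | nil : Wk w u u 0 0
  | cons (d : K.E × Bool) (a b : ℕ) :
      Wk w u (K.org (rv d)) a b → Wk w u (K.org d) (w d.1 + a) (b + 1)

variable {K}

open Classical in
/-- edges of the tree path from `v` to the root -/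
noncomputable def ancE (T : K.STree) (v : K.V) : Finset K.E := univ.filter (T.Anc v)

theorem anc_root (T : K.STree) (e : K.E) (v : K.V) (hv : T.pd v = none) : ¬ T.Anc v e := by
  rintro ⟨w, d, h1, h2, -⟩
  rcases Relation.ReflTransGen.cases_head h1 with h | ⟨x, ⟨d', h3, -⟩, -⟩
  · rw [h, h2] at hv
    exact absurd hv (by simp)
  · rw [hv] at h3
    exact absurd h3 (by simp)

theorem anc_step (T : K.STree) (e : K.E) (v : K.V) (d : K.E × Bool) (hv : T.pd v = some d)
    (h : T.Anc v e) : e = d.1 ∨ T.Anc (K.org (rv d)) e := by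
  obtain ⟨w, d', h1, h2, h3⟩ := h
  rcases Relation.ReflTransGen.cases_head h1 with h | ⟨x, ⟨d1, h4, h5⟩, h6⟩
  · rw [← h, hv] at h2
    left
    rw [← h3, Option.some.inj h2]
  · right
    rw [hv] at h4
    rw [← Option.some.inj h4] at h5
    exact ⟨w, d', h5 ▸ h6, h2, h3⟩

/-- shortest path trees -/
theorem exists_tree (w : K.E → ℕ) (root : K.V) (D0 : ℕ)
    (hD : ∀ v, ∃ a b, a ≤ D0 ∧ Wk K w root v a b) :
    ∃ T : K.STree, T.root = root ∧ ∀ v, ∑ e ∈ ancE T v, w e ≤ D0 := by
  classical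
  choose a b ha hab using hD
  obtain ⟨B, hB⟩ : ∃ B : ℕ, ∀ v, b v < B := by
    refine ⟨∑ v, b v + 1, fun v => Nat.lt_succ_of_le ?_⟩
    exact Finset.single_le_sum (f := b) (fun _ _ => Nat.zero_le _) (Finset.mem_univ v)
  -- minimal total weights
  have hex : ∀ v, ∃ n, ∃ a b, B * a + b = n ∧ Wk K w root v a b := fun v =>
    ⟨_, a v, b v, rfl, hab v⟩
  obtain ⟨hgt, hhgt⟩ : ∃ hgt : K.V → ℕ, hgt = fun v => Nat.find (hex v) := ⟨_, rfl⟩
  have hspec : ∀ v, ∃ a b, B * a + b = hgt v ∧ Wk K w root v a b := fun v => by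
    rw [hhgt]
    exact Nat.find_spec (hex v)
  have hmin : ∀ v a b, Wk K w root v a b → hgt v ≤ B * a + b := fun v a b h => by
    rw [hhgt]
    exact Nat.find_min' (hex v) ⟨a, b, rfl, h⟩
  have hstep : ∀ v, v ≠ root → ∃ d : K.E × Bool, K.org d = v ∧
      hgt (K.org (rv d)) + (B * w d.1 + 1) ≤ hgt v := by
    intro v hv
    obtain ⟨a, b, h1, h2⟩ := hspec v
    cases h2 with
    | nil => exact absurd rfl hv
    | cons d a b h =>
      refine ⟨d, rfl, ?_⟩
      have h3 := hmin _ _ _ h
      rw [← h1, Nat.mul_add]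
      omega
  obtain ⟨pd, hpd⟩ : ∃ pd : K.V → Option (K.E × Bool), ∀ v, (v = root → pd v = none) ∧
      (v ≠ root → ∃ d, pd v = some d ∧ K.org d = v ∧
        hgt (K.org (rv d)) + (B * w d.1 + 1) ≤ hgt v) := by
    refine ⟨fun v => if h : v = root then none else some (hstep v h).choose, fun v => ?_⟩
    refine ⟨fun h => dif_pos h, fun h => ⟨(hstep v h).choose, dif_neg h, ?_⟩⟩
    exact (hstep v h).choose_spec
  obtain ⟨T, hT1, hT2, hT3⟩ : ∃ T : K.STree, T.root = root ∧ T.pd = pd ∧ T.hgt = hgt := by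
    refine ⟨⟨pd, hgt, root, fun v => ?_, fun v d h => ?_, fun v d h => ?_⟩, rfl, rfl, rfl⟩
    · by_cases h : v = root
      · exact ⟨fun _ => h, fun _ => (hpd v).1 h⟩
      · obtain ⟨d, h1, -⟩ := (hpd v).2 h
        refine ⟨fun h2 => ?_, fun h2 => absurd h2 h⟩
        rw [h1] at h2
        exact absurd h2 (by simp)
    · by_cases h0 : v = root
      · rw [(hpd v).1 h0] at h
        exact absurd h (by simp)
      · obtain ⟨d', h1, h2, -⟩ := (hpd v).2 h0
        rw [h1] at h
        rw [← Option.some.inj h]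
        exact h2
    · by_cases h0 : v = root
      · rw [(hpd v).1 h0] at h
        exact absurd h (by simp)
      · obtain ⟨d', h1, -, h2⟩ := (hpd v).2 h0
        rw [h1] at h
        rw [← Option.some.inj h]
        omega
  have hanc : ∀ n v, hgt v = n → ∑ e ∈ ancE T v, (B * w e + 1) ≤ n := by
    intro n
    induction n using Nat.strong_induction_on with
    | _ n ih =>
      intro v hv
      by_cases h0 : v = root
      · have h1 : ancE T v = ∅ := by
          refine Finset.filter_false_of_mem fun e _ => anc_root T e v ?_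
          rw [hT2]
          exact (hpd v).1 h0
        rw [h1, Finset.sum_empty]
        exact Nat.zero_le _
      · obtain ⟨d, h1, -, h3⟩ := (hpd v).2 h0
        have h4 : ancE T v ⊆ insert d.1 (ancE T (K.org (rv d))) := by
          intro e he
          have h5 := (Finset.mem_filter.1 he).2
          rcases anc_step T e v d (by rw [hT2]; exact h1) h5 with h | h
          · rw [h]
            exact Finset.mem_insert_self _ _
          · exact Finset.mem_insert_of_mem (Finset.mem_filter.2 ⟨Finset.mem_univ _, h⟩)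
        have h5 := ih _ (by omega) (K.org (rv d)) rfl
        have h6 : ∑ e ∈ insert d.1 (ancE T (K.org (rv d))), (B * w e + 1) ≤
            (B * w d.1 + 1) + ∑ e ∈ ancE T (K.org (rv d)), (B * w e + 1) := by
          by_cases h : d.1 ∈ ancE T (K.org (rv d))
          · rw [Finset.insert_eq_of_mem h]
            exact Nat.le_add_left _ _
          · rw [Finset.sum_insert h]
        have h7 := Finset.sum_le_sum_of_subset (f := fun e => B * w e + 1) h4
        omega
  refine ⟨T, hT1, fun v => ?_⟩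
  have h1 := hanc _ v rfl
  have h2 : B * ∑ e ∈ ancE T v, w e ≤ ∑ e ∈ ancE T v, (B * w e + 1) := by
    rw [Finset.mul_sum]
    exact Finset.sum_le_sum fun e _ => Nat.le_succ _
  have h3 := hmin v _ _ (hab v)
  have h4 := hB v
  have h5 : B * ∑ e ∈ ancE T v, w e < B * (D0 + 1) := by
    have h6 : B * a v ≤ B * D0 := Nat.mul_le_mul_left _ (ha v)
    rw [Nat.mul_add, Nat.mul_one]
    omega
  exact Nat.lt_succ_iff.1 (Nat.lt_of_mul_lt_mul_left h5)

/-! ## Subtrees -/

theorem face_unique {d : K.E × Bool} {f g : Option K.F} (hf : d ∈ K.bd f) (hg : d ∈ K.bd g) :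
    f = g := by
  by_contra hne
  have h1 : (K.bd f).count d + (K.bd g).count d ≤ ∑ f, (K.bd f).count d := by
    have h2 := Finset.sum_le_sum_of_subset (f := fun f => (K.bd f).count d)
      (Finset.subset_univ ({f, g} : Finset (Option K.F)))
    rw [Finset.sum_pair hne] at h2
    exact h2
  rw [K.once] at h1
  have h2 := List.count_pos_iff.2 hf
  have h3 := List.count_pos_iff.2 hg
  omega

theorem dd_inj (C : K.Cotree) : Function.Injective C.dd := by
  intro f g h
  have h1 := C.mem f
  rw [h] at h1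
  exact Option.some.inj (face_unique h1 (C.mem g))

theorem card_children (C : K.Cotree) (f : Option K.F) :
    (univ.filter fun g => C.par g = f).card ≤ (K.bd f).length := by
  classical
  refine le_trans ?_ (List.toFinset_card_le (K.bd f))
  refine Finset.card_le_card_of_injOn (fun g => rv (C.dd g)) (fun g hg => ?_) ?_
  · have h1 : C.par g = f := by simpa using hg
    simp only [List.coe_toFinset, Set.mem_ofPred_eq]
    rw [← h1]
    exact C.memr g
  · intro g _ g' _ h
    refine dd_inj C ?_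
    have h1 := congrArg rv h
    rwa [PC.rv_rv, PC.rv_rv] at h1

theorem mem_sub {C : K.Cotree} {f g : K.F} : g ∈ C.sub f ↔ C.Desc f g := by
  classical
  rw [PC.Cotree.sub, Finset.mem_filter]
  exact ⟨fun h => h.2, fun h => ⟨Finset.mem_univ _, h⟩⟩

theorem card_sub_le (C : K.Cotree) (f : K.F) :
    (C.sub f).card ≤ 1 + ∑ g ∈ univ.filter (fun g => C.par g = some f), (C.sub g).card := by
  classical
  have h1 : C.sub f ⊆ insert f ((univ.filter (fun g => C.par g = some f)).biUnion C.sub) := by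
    intro x hx
    rw [mem_sub] at hx
    rcases Relation.ReflTransGen.cases_tail hx with h | ⟨g, h2, h3⟩
    · rw [h]
      exact Finset.mem_insert_self _ _
    · refine Finset.mem_insert_of_mem (Finset.mem_biUnion.2 ⟨g, ?_, mem_sub.2 h2⟩)
      exact Finset.mem_filter.2 ⟨Finset.mem_univ _, h3⟩
  refine (Finset.card_le_card h1).trans ((Finset.card_insert_le _ _).trans ?_)
  rw [Nat.add_comm]
  exact Nat.add_le_add_left Finset.card_biUnion_le _

theorem exists_top (C : K.Cotree) (f : K.F) : ∃ g, C.par g = none ∧ C.Desc g f := by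
  have key : ∀ n (f : K.F), C.rank f = n → ∃ g, C.par g = none ∧ C.Desc g f := by
    intro n
    induction n using Nat.strong_induction_on with
    | _ n ih =>
      intro f hf
      cases h : C.par f with
      | none => exact ⟨f, h, Relation.ReflTransGen.refl⟩
      | some g =>
        obtain ⟨x, h1, h2⟩ := ih (C.rank g) (hf ▸ C.dec f g h) g rfl
        exact ⟨x, h1, Relation.ReflTransGen.head h h2⟩
  exact key _ f rfl

theorem card_univ_le (C : K.Cotree) :
    Fintype.card K.F ≤ ∑ g ∈ univ.filter (fun g => C.par g = none), (C.sub g).card := by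
  classical
  have h1 : (univ : Finset K.F) ⊆ (univ.filter (fun g => C.par g = none)).biUnion C.sub := by
    intro x _
    obtain ⟨g, h2, h3⟩ := exists_top C x
    exact Finset.mem_biUnion.2 ⟨g, Finset.mem_filter.2 ⟨Finset.mem_univ _, h2⟩, mem_sub.2 h3⟩
  rw [← Finset.card_univ]
  exact (Finset.card_le_card h1).trans Finset.card_biUnion_le

theorem exists_large {ι : Type} (s : Finset ι) (x : ι → ℕ) (D n : ℕ) (hs : s.card ≤ D)
    (h : n ≤ ∑ i ∈ s, x i) (hn : 0 < n) : ∃ i ∈ s, n ≤ D * x i := by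
  by_contra hc
  push Not at hc
  have hne : s.Nonempty := by
    rw [Finset.nonempty_iff_ne_empty]
    rintro rfl
    rw [Finset.sum_empty] at h
    omega
  have hD : 0 < D := lt_of_lt_of_le (Finset.card_pos.2 hne) hs
  have h1 : ∑ i ∈ s, D * x i < ∑ _i ∈ s, n := Finset.sum_lt_sum_of_nonempty hne hc
  rw [← Finset.mul_sum, Finset.sum_const, smul_eq_mul] at h1
  have h2 : s.card * n ≤ D * n := Nat.mul_le_mul_right _ hs
  have h3 : D * n ≤ D * ∑ i ∈ s, x i := Nat.mul_le_mul_left _ h
  omega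

/-- balanced subtrees -/
theorem exists_balanced (C : K.Cotree) (Δ : ℕ) (hΔ : ∀ f, (K.bd f).length ≤ Δ)
    (hN : 2 ≤ Fintype.card K.F) :
    ∃ f, Fintype.card K.F + 1 ≤ 4 * Δ * (C.sub f).card ∧
      2 * (C.sub f).card ≤ Fintype.card K.F + 1 := by
  classical
  by_cases h : ∃ f, Fintype.card K.F + 1 < 2 * (C.sub f).card
  · -- maximal rank
    obtain ⟨f, hf1, hf2⟩ := Finset.exists_max_image
      (univ.filter fun f => Fintype.card K.F + 1 < 2 * (C.sub f).card) C.rank (by
        obtain ⟨f, hf⟩ := h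
        exact ⟨f, Finset.mem_filter.2 ⟨Finset.mem_univ _, hf⟩⟩)
    rw [Finset.mem_filter] at hf1
    have h1 := card_sub_le C f
    obtain ⟨g, hg, hg2⟩ := exists_large (univ.filter fun g => C.par g = some f)
      (fun g => (C.sub g).card) Δ ((C.sub f).card - 1)
      ((card_children C (some f)).trans (hΔ _)) (by omega) (by omega)
    have hpar : C.par g = some f := (Finset.mem_filter.1 hg).2
    refine ⟨g, ?_, ?_⟩
    · have h2 : 4 * Δ * (C.sub g).card = 4 * (Δ * (C.sub g).card) := Nat.mul_assoc _ _ _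
      rw [h2]
      omega
    · by_contra hc
      have h2 := hf2 g (Finset.mem_filter.2 ⟨Finset.mem_univ _, not_le.1 hc⟩)
      have h3 := C.dec g f hpar
      omega
  · push Not at h
    obtain ⟨g, hg, hg2⟩ := exists_large (univ.filter fun g => C.par g = none)
      (fun g => (C.sub g).card) Δ (Fintype.card K.F)
      ((card_children C none).trans (hΔ _)) (card_univ_le C) (by omega)
    refine ⟨g, ?_, h g⟩
    have h2 : 4 * Δ * (C.sub g).card = 4 * (Δ * (C.sub g).card) := Nat.mul_assoc _ _ _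
    rw [h2]
    omega

/-- (d) balanced cut of small weight -/
theorem exists_cut (hT1 : StmtT1) (w : K.E → ℕ) (Y D0 Δ : ℕ) (hw : ∀ e, w e ≤ Y)
    (hΔ : ∀ f, (K.bd f).length ≤ Δ) (hN : 2 ≤ Fintype.card K.F) (root : K.V)
    (hD : ∀ v, ∃ a b, a ≤ D0 ∧ Wk K w root v a b) :
    ∃ (C : K.Cotree) (f : K.F), C.root = root ∧
      Fintype.card K.F + 1 ≤ 4 * Δ * (C.sub f).card ∧
      2 * (C.sub f).card ≤ Fintype.card K.F + 1 ∧
      ∑ e ∈ K.bdry (C.sub f), w e ≤ 2 * D0 + Y := by
  classical
  obtain ⟨T, hT, hTw⟩ := exists_tree w root D0 hD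
  obtain ⟨C, hC1, -, hC3⟩ := hT1 A K T
  obtain ⟨f, hf1, hf2⟩ := exists_balanced C Δ hΔ hN
  refine ⟨C, f, hC1.trans hT, hf1, hf2, ?_⟩
  have h1 : K.bdry (C.sub f) ⊆ insert (C.dd f).1
      (ancE T (K.org (C.dd f)) ∪ ancE T (K.org (rv (C.dd f)))) := by
    intro e he
    rcases hC3 f e he with h | h | h
    · rw [h]
      exact Finset.mem_insert_self _ _
    · exact Finset.mem_insert_of_mem (Finset.mem_union_left _
        (Finset.mem_filter.2 ⟨Finset.mem_univ _, h⟩))
    · exact Finset.mem_insert_of_mem (Finset.mem_union_right _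
        (Finset.mem_filter.2 ⟨Finset.mem_univ _, h⟩))
  have h2 := Finset.sum_le_sum_of_subset (f := w) h1
  have h3 : ∑ e ∈ insert (C.dd f).1 (ancE T (K.org (C.dd f)) ∪ ancE T (K.org (rv (C.dd f)))), w e ≤
      w (C.dd f).1 + (∑ e ∈ ancE T (K.org (C.dd f)), w e +
        ∑ e ∈ ancE T (K.org (rv (C.dd f))), w e) := by
    have h4 : ∑ e ∈ ancE T (K.org (C.dd f)) ∪ ancE T (K.org (rv (C.dd f))), w e ≤
        ∑ e ∈ ancE T (K.org (C.dd f)), w e + ∑ e ∈ ancE T (K.org (rv (C.dd f))), w e := by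
      rw [← Finset.sum_union_inter]
      exact Nat.le_add_right _ _
    refine le_trans ?_ (Nat.add_le_add_left h4 _)
    by_cases h : (C.dd f).1 ∈ ancE T (K.org (C.dd f)) ∪ ancE T (K.org (rv (C.dd f)))
    · rw [Finset.insert_eq_of_mem h]
      exact Nat.le_add_left _ _
    · rw [Finset.sum_insert h]
  have h4 := hTw (K.org (C.dd f))
  have h5 := hTw (K.org (rv (C.dd f)))
  have h6 := hw (C.dd f).1
  omega

theorem wk_of_reach (w : K.E → ℕ) {r : ℕ} {v u : K.V} (h : K.Reach w r v u) :
    ∃ a b, a ≤ r ∧ Wk K w u v a b := by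
  obtain ⟨l, h1, h2⟩ := h
  refine ⟨K.wtD w l, l.length, h2, ?_⟩
  clear h2
  induction h1 with
  | nil v => exact .nil
  | cons d l u _ ih =>
    have h3 : K.wtD w (d :: l) = w d.1 + K.wtD w l := by
      simp [PC.wtD]
    rw [h3]
    exact .cons d _ _ ih

/-- (d) balanced cut of small weight, with `K.Reach` -/
theorem exists_cut_reach (hT1 : StmtT1) (w : K.E → ℕ) (Y D0 Δ : ℕ) (hw : ∀ e, w e ≤ Y)
    (hΔ : ∀ f, (K.bd f).length ≤ Δ) (hN : 2 ≤ Fintype.card K.F) (root : K.V)
    (hD : ∀ v, K.Reach w D0 v root) :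
    ∃ (C : K.Cotree) (f : K.F), C.root = root ∧
      Fintype.card K.F + 1 ≤ 4 * Δ * (C.sub f).card ∧
      2 * (C.sub f).card ≤ Fintype.card K.F + 1 ∧
      ∑ e ∈ K.bdry (C.sub f), w e ≤ 2 * D0 + Y :=
  exists_cut hT1 w Y D0 Δ hw hΔ hN root fun v => wk_of_reach w (hD v)

end Vale.Agent.P201.S.F7d
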