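import Vale.Agent.P201.S.Wtl
import Vale.Agent.P201.S.F.Good
import Vale.Agent.P201.S.F.FL
import Vale.Agent.P201.S.F.F7a

/-!
P201 part F, assembly by complexes (helper631):
`StmtVK`, `StmtGd`, `StmtLocK`, `StmtBridgeS`, `StmtIso` imply `StmtGlob`.
-/

namespace Vale.Agent.P201.S

open Finset

namespace Glob2

variable {S : Sys} {σ : Equiv.Perm (S.C)}

/-! ### weights -/

/-- the weight of the edges with exactly one inner side is at most the weight of the outer word -/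
theorem W_le (K : SqK σ) (Y : ℕ) : K.W Y ≤ wtw Y K.outw := by
  classical
  have h1 : wtw Y K.outw = ((K.bd none).map (fun d => wtl Y (K.lab d.1))).sum := by
    unfold SqK.outw PC.wd winv wtw
    rw [List.map_reverse, List.sum_reverse, List.map_map, List.map_map]
    rfl
  have hnd : (K.bd none).Nodup := by
    rw [List.nodup_iff_count_le_one]
    intro d
    have h := K.once d
    have h3 : (K.bd none).count d ≤ ∑ f, (K.bd f).count d :=
      Finset.single_le_sum (f := fun f => (K.bd f).count d) (fun _ _ => Nat.zero_le _)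
        (Finset.mem_univ none)
    omega
  rw [h1]
  have h2 : ((K.bd none).map (fun d => wtl Y (K.lab d.1))).sum =
      ∑ d ∈ (K.bd none).toFinset, wtl Y (K.lab d.1) := by
    rw [List.sum_toFinset _ hnd]
  rw [h2]
  unfold SqK.W SqK.wS
  have h3 : K.bdry univ ⊆ (K.bd none).toFinset.image Prod.fst := by
    intro e he
    rw [Finset.mem_image]
    have hcov : ∀ d : K.E × Bool, (∃ f ∈ (univ : Finset K.F), d ∈ K.bd (some f)) ∨ d ∈ K.bd none := by
      intro d
      by_contra hcon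
      rw [not_or] at hcon
      have h := K.once d
      have h0 : ∑ f, (K.bd f).count d = 0 := by
        apply Finset.sum_eq_zero
        intro f _
        rw [List.count_eq_zero]
        intro hd
        cases f with
        | none => exact hcon.2 hd
        | some f => exact hcon.1 ⟨f, Finset.mem_univ f, hd⟩
      omega
    have he2 := (Finset.mem_filter.1 he).2
    rcases hcov (e, true) with ha | ha
    · rcases hcov (e, false) with hb | hb
      · exact absurd (iff_of_true ha hb) he2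
      · exact ⟨(e, false), List.mem_toFinset.2 hb, rfl⟩
    · exact ⟨(e, true), List.mem_toFinset.2 ha, rfl⟩
  calc ∑ e ∈ K.bdry univ, wtl Y (K.lab e)
      ≤ ∑ e ∈ (K.bd none).toFinset.image Prod.fst, wtl Y (K.lab e) :=
        Finset.sum_le_sum_of_subset h3
    _ ≤ ∑ d ∈ (K.bd none).toFinset, wtl Y (K.lab d.1) :=
        Finset.sum_image_le_of_nonneg (fun _ _ => Nat.zero_le _)

/-- `StmtGd` and `StmtLocK` give the bridge -/
theorem stmtBridge_of (hGd : StmtGd) (hLK : StmtLocK) : StmtBridge := by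
  intro S σ K P hN ht
  obtain ⟨G, h1, h2, h3, h4, h5⟩ := hLK S σ K (hGd S σ K P hN ht)
  exact ⟨G, h1, h2, h3, h4, fun Y => (h5 Y).trans (W_le K Y)⟩

/-! ### powers of `t` -/

/-- no power of `t` is trivial -/
theorem tpow (hVK : StmtVK) (hGd : StmtGd) {Y : ℕ} {a : ℝ} (ha : 0 < a)
    (hI : ∀ K : SqK σ, K.Gd → a * Fintype.card K.F ≤ K.W Y) :
    ∀ (m : ℤ) (k : ℕ) (z : Chn σ), m ≠ 0 → ¬ Expr σ k (val (tw S m)) z := by
  classical
  intro m0 k0 z0 hm0 h0
  have hex : ∃ k, ∃ (m : ℤ) (z : Chn σ), m ≠ 0 ∧ Expr σ k (val (tw S m)) z := ⟨k0, m0, z0, hm0, h0⟩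
  obtain ⟨m, z, hm, hz⟩ := Nat.find_spec hex
  set F := Nat.find hex with hF
  have hmin : ∀ (m' : ℤ) (k' : ℕ) (z' : Chn σ), m' ≠ 0 → Expr σ k' (val (tw S m')) z' → F ≤ k' :=
    fun m' k' z' hm' h' => Nat.find_min' hex ⟨m', z', hm', h'⟩
  have hF0 : F ≠ 0 := by
    intro hF0
    rw [hF0] at hz
    exact FL.tw_ne hm (FL.expr_zero hz).1
  have hMA : MinA σ (val (tw S m)) F := ⟨⟨z, hz⟩, fun k' z' h' => hmin m k' z' hm h'⟩
  obtain ⟨K0, P, hc, ho, hch⟩ := hVK S σ _ F z hz (FL.noRed_of_minA hMA)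
  rw [FL.toWord_tw] at ho
  have hgood : K0.Gd := hGd S σ K0 P (by rw [ho, hc]; exact FL.noRed_of_minA hMA)
    (fun m' k' z' hm' h' => Or.inr ⟨by rw [hc]; exact hmin m' k' z' hm' h', fun a ha => by
      rw [ho] at ha
      exact FL.mem_tw ha⟩)
  have h1 := hI K0 hgood
  have h2 := W_le K0 Y
  rw [ho, FL.wt_tw] at h2
  have h3 : (K0.W Y : ℝ) ≤ 0 := by exact_mod_cast h2
  rw [hc] at h1
  have h4 : (0 : ℝ) < F := by exact_mod_cast Nat.pos_of_ne_zero hF0
  nlinarith [mul_pos ha h4]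

/-- isoperimetric inequality for group elements -/
theorem iso (hVK : StmtVK) (hGd : StmtGd) {Y : ℕ} {a : ℝ} (ha : 0 < a)
    (hI : ∀ K : SqK σ, K.Gd → a * Fintype.card K.F ≤ K.W Y) :
    ∀ (u : FreeGroup (Let S)) (k : ℕ), MinA σ u k → a * k ≤ wtw Y u.toWord := by
  intro u k hu
  obtain ⟨z, hz⟩ := hu.1
  obtain ⟨K0, P, hc, ho, hch⟩ := hVK S σ _ k z hz (FL.noRed_of_minA hu)
  have hgood : K0.Gd := hGd S σ K0 P (by rw [ho, hc, FL.val_toWord]; exact FL.noRed_of_minA hu)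
    (fun m' k' z' hm' h' => absurd h' (tpow hVK hGd ha hI m' k' z' hm'))
  have h1 := hI K0 hgood
  have h2 : (K0.W Y : ℝ) ≤ wtw Y K0.outw := by exact_mod_cast W_le K0 Y
  rw [ho] at h2
  rw [hc] at h1
  linarith

/-- a minimal sphere satisfies the isoperimetric inequality -/
theorem sph_le (hVK : StmtVK) (hGd : StmtGd) {Y : ℕ} {a : ℝ} (ha : 0 < a)
    (hI : ∀ K : SqK σ, K.Gd → a * Fintype.card K.F ≤ K.W Y) (T : Sph σ) :
    a * Fintype.card T.K.F ≤ 2 + 2 * Y := by
  have hNR : NoRed σ (val T.K.outw) (Fintype.card T.K.F) (T.K.chn T.P univ) := by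
    intro k1 z1 hk1 hk2 hE1 hE2
    have hz1 : z1 = 0 := T.min k1 z1 hk2 hE1
    subst hz1
    rw [sub_zero, T.out] at hE2
    have hE3 := EX.mul hE2 (EX.inv (EX.sq (σ := σ) 1 T.q0))
    rw [one_mul, inv_one, mul_one, mul_inv_cancel, map_one, ← sub_eq_add_neg] at hE3
    exact T.chn (T.min _ _ (by omega) hE3)
  have hgood : T.K.Gd := hGd S σ T.K T.P hNR
    (fun m' k' z' hm' h' => absurd h' (tpow hVK hGd ha hI m' k' z' hm'))
  have h1 := hI T.K hgood
  have h2 : (T.K.W Y : ℝ) ≤ wtw Y T.K.outw := by exact_mod_cast W_le T.K Y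
  have h3 : wtw Y T.K.outw = 2 + 2 * Y := by
    rw [T.out]
    exact wtw_relw Y _
  rw [h3] at h2
  push_cast at h2
  linarith

end Glob2

open Glob2 in
/-- assembly of part F by the route of complexes -/
theorem stmtGlob_of (hVK : StmtVK) (hGd : StmtGd) (hLK : StmtLocK) (hBS : StmtBridgeS)
    (hIso : StmtIso) : StmtGlob := by
  intro c e1 L hc he1
  obtain ⟨K, Y0, hK⟩ := hIso c e1 L hc he1
  -- constants
  obtain ⟨K2, hK2⟩ := exists_nat_gt (16 / e1)
  obtain ⟨Y2, hY2⟩ := exists_nat_gt (4 / (e1 * c))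
  obtain ⟨Y3, hY3⟩ := exists_nat_gt (2 / c)
  refine ⟨max K K2 + 1, max (max Y0 Y2) (max Y3 1), ?_⟩
  intro S hL Y hY σ g hg hgi hloc
  have hYY0 : Y0 ≤ Y := (le_max_left _ _).trans ((le_max_left _ _).trans hY)
  have hYY2 : Y2 ≤ Y := (le_max_right _ _).trans ((le_max_left _ _).trans hY)
  have hYY3 : Y3 ≤ Y := (le_max_left _ _).trans ((le_max_right _ _).trans hY)
  have hY1 : 1 ≤ Y := (le_max_right _ _).trans ((le_max_right _ _).trans hY)
  have hlocK : LocIso σ (K * Y) Y e1 := by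
    intro G h1 h2 h3 h4
    exact hloc G h1 h2 h3 (h4.trans (Nat.mul_le_mul_right Y ((le_max_left _ _).trans (Nat.le_succ _))))
  have hI := hK S hL Y hYY0 σ g hg hgi hlocK
  have ha : 0 < e1 / 2 := by positivity
  have hVKiso := iso hVK hGd ha hI
  have hY2' : 4 / (e1 * c) < Y := lt_of_lt_of_le hY2 (by exact_mod_cast hYY2)
  have hY3' : 2 / c < Y := lt_of_lt_of_le hY3 (by exact_mod_cast hYY3)
  refine ⟨?_, ?_, ?_⟩
  · intro k z hz
    by_contra hne
    have hg2 : 2 ≤ g := by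
      have h1 : (2 : ℝ) < g := by
        rw [div_lt_iff₀ hc] at hY3'
        nlinarith
      exact_mod_cast h1.le
    obtain ⟨T⟩ := F7.exists_sph hVK hgi hg2 hz hne
    have h1 := F7.Sph.large hBS he1 hloc (tpow hVK hGd ha hI) T
    have h2 := sph_le hVK hGd ha hI T
    have h3 : ((max K K2 + 1) * Y : ℝ) < Fintype.card T.K.F + 1 := by exact_mod_cast h1
    have h4 : (16 / e1 : ℝ) < (max K K2 : ℕ) := lt_of_lt_of_le hK2 (by exact_mod_cast le_max_right _ _)
    have h5 : (1 : ℝ) ≤ Y := by exact_mod_cast hY1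
    rw [div_lt_iff₀ he1] at h4
    push_cast at h4
    have h6 : ((max (K : ℝ) (K2 : ℝ)) + 1) * Y ≤ Fintype.card T.K.F + 1 := by
      have : ((max K K2 : ℕ) : ℝ) = max (K : ℝ) (K2 : ℝ) := by push_cast; rfl
      rw [← this]
      exact_mod_cast h1.le
    set X : ℝ := max (K : ℝ) (K2 : ℝ) with hX
    have h7 : X * Y ≤ Fintype.card T.K.F := by nlinarith
    have h8 : 16 * Y ≤ e1 * Fintype.card T.K.F := by
      have : e1 * (X * Y) ≤ e1 * Fintype.card T.K.F := mul_le_mul_of_nonneg_left h7 he1.le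
      nlinarith
    nlinarith
  · intro l hl hw h1
    refine FL.f6b hVK (stmtBridge_of hGd hLK) ha hVKiso hgi ?_ l hl hw h1
    rw [div_lt_iff₀ (by positivity)] at hY2'
    have : e1 * (c * Y) ≤ e1 * g := mul_le_mul_of_nonneg_left hg he1.le
    nlinarith
  · intro l h1
    obtain ⟨k', z', h'⟩ := FL.of_ker h1
    obtain ⟨k, _, hk⟩ := FL.exists_minA h'
    obtain ⟨z, hz⟩ := hk.1
    refine ⟨k, z, hz, ?_⟩
    have h2 := hVKiso _ _ hk
    have h3 : (wtw Y (val l).toWord : ℝ) ≤ wtw Y l := by exact_mod_cast FL.wt_toWord Y l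
    linarith

end Vale.Agent.P201.S
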